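import Vale.Agent.P263.H968.Kappa

/-!
Functionals that kill all hits, and the two reduction steps.
-/

namespace Vale.Agent.P263.H968

open MvPolynomial Finset

noncomputable section

variable {m n : ℕ}

/-- `x` is a functional of degree `d` that kills every `Sq^r h`, `r ≥ 1`, for `h` in the ideal
generated by `Q_0 ^ a`. -/
structure Ann (m a d : ℕ) (x : D (m + 1) →ₗ[ZMod 2] ZMod 2) : Prop where
  deg : ∀ b, weight b ≠ d → x (mono b) = 0
  ann : ∀ g, x (sq (m + 1) (X 0 ^ a * g)) = x (X 0 ^ a * g)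

lemma X0_pow_mul_mono (a : ℕ) (b : Fin (m + 1) → ℕ) :
    X 0 ^ a * mono b = mono (b + Pi.single 0 a) := by
  have : (X 0 : D (m + 1)) ^ a = mono (Pi.single 0 a) := by
    rw [mono_eq_prod, Finset.prod_eq_single 0]
    · simp
    · intro j _ hj; simp [hj]
    · intro h; exact absurd (Finset.mem_univ _) h
  rw [this, mono_mul, add_comm (Pi.single 0 a) b]

lemma mono_of_ge {a : ℕ} {b : Fin (m + 1) → ℕ} (h : a ≤ b 0) :
    mono b = X 0 ^ a * mono (b - Pi.single 0 a) := by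
  rw [X0_pow_mul_mono]
  congr 1
  funext i
  by_cases hi : i = 0
  · subst hi; simp; omega
  · simp [hi]

lemma ext_ge {V : Type*} [AddCommGroup V] [Module (ZMod 2) V] {a : ℕ}
    {A B : D (m + 1) →ₗ[ZMod 2] V} (h : ∀ b, a ≤ b 0 → A (mono b) = B (mono b)) (g : D (m + 1)) :
    A (X 0 ^ a * g) = B (X 0 ^ a * g) := by
  induction g using mono_induction with
  | h0 => simp
  | ha f g hf hg => rw [mul_add, map_add, map_add, hf, hg]
  | hm b =>
    rw [X0_pow_mul_mono]
    apply h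
    simp

lemma exists_mono_ne {a : ℕ} {x : D (m + 1) →ₗ[ZMod 2] ZMod 2} {g : D (m + 1)}
    (h : x (X 0 ^ a * g) ≠ 0) : ∃ b, a ≤ b 0 ∧ x (mono b) ≠ 0 := by
  by_contra hcon
  push Not at hcon
  apply h
  have := ext_ge (a := a) (A := x) (B := 0) (fun b hb => by simpa using hcon b hb) g
  simpa using this

lemma unip' (a N : ℕ) (z : D (m + 1) →ₗ[ZMod 2] ZMod 2)
    (hz : ∀ b, N < weight b → z (mono b) = 0)
    (h : ∀ g, z (sq (m + 1) (X 0 ^ a * g)) = 0) (g : D (m + 1)) : z (X 0 ^ a * g) = 0 := by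
  let z' : D (m + 1) →ₗ[ZMod 2] ZMod 2 := z ∘ₗ LinearMap.mulLeft (ZMod 2) (X 0 ^ a)
  have hz' : ∀ g, z' g = z (X 0 ^ a * g) := fun g => rfl
  rw [← hz']
  apply unip (S_pow_sub_one_mem a) z' N
  · intro b hb
    rw [hz', X0_pow_mul_mono]
    apply hz
    rw [weight_add]; omega
  · intro b
    rw [hz', ← sq_X0_pow_mul]
    exact h _

lemma E_stable (a k : ℕ) (g : D (m + 1)) : ∃ g', E m k (X 0 ^ a * g) = X 0 ^ a * g' := by
  induction a with
  | zero => exact ⟨E m k g, by simp⟩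
  | succ a ih =>
    obtain ⟨g', hg'⟩ := ih
    have hX : ∃ u, E m k (X 0) = X 0 * u := by
      rw [E_X]
      split_ifs
      · exact ⟨1, by ring⟩
      · exact ⟨0, by ring⟩
      · exact ⟨X 0, by ring⟩
    obtain ⟨u, hu⟩ := hX
    refine ⟨g' + g * u, ?_⟩
    have : (X 0 : D (m + 1)) ^ (a + 1) * g = X 0 * (X 0 ^ a * g) := by ring
    rw [this, Derivation.leibniz, hg', hu, smul_eq_mul, smul_eq_mul]
    ring

lemma E_mono_mem (k : ℕ) (b : Fin (m + 1) → ℕ) : E m k (mono b) ∈ Hi (m + 1) (weight b) := by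
  have hX : ∀ i : Fin (m + 1), E m k (X i) ∈ Hi (m + 1) (2 ^ (m + 1) - 2 ^ (i : ℕ)) := by
    intro i
    rw [E_X]
    split_ifs with h1 h2
    · apply X_mem_Hi
      have : 1 ≤ 2 ^ (i : ℕ) := Nat.one_le_two_pow
      simp only [Fin.val_zero, pow_zero]
      omega
    · exact Submodule.zero_mem _
    · have := Hi_mul (X_mem_Hi (0 : Fin (m + 1)) (Nat.zero_le _)) (X_mem_Hi i le_rfl)
      rw [Nat.zero_add] at this
      exact this
  have key : ∀ (w w' : ℕ) (f g : D (m + 1)), (f ∈ Hi (m + 1) w ∧ E m k f ∈ Hi (m + 1) w) →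
      (g ∈ Hi (m + 1) w' ∧ E m k g ∈ Hi (m + 1) w') →
      (f * g ∈ Hi (m + 1) (w + w') ∧ E m k (f * g) ∈ Hi (m + 1) (w + w')) := by
    rintro w w' f g ⟨hf, hEf⟩ ⟨hg, hEg⟩
    refine ⟨Hi_mul hf hg, ?_⟩
    rw [Derivation.leibniz, smul_eq_mul, smul_eq_mul]
    apply Submodule.add_mem
    · exact Hi_mul hf hEg
    · rw [mul_comm]; exact Hi_mul hEf hg
  have h1 : (1 : D (m + 1)) ∈ Hi (m + 1) 0 ∧ E m k 1 ∈ Hi (m + 1) 0 :=
    ⟨mem_Hi_zero _, mem_Hi_zero _⟩
  have hpow : ∀ (i : Fin (m + 1)) (c : ℕ),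
      ((X i : D (m + 1)) ^ c ∈ Hi (m + 1) (c * (2 ^ (m + 1) - 2 ^ (i : ℕ))) ∧
      E m k (X i ^ c) ∈ Hi (m + 1) (c * (2 ^ (m + 1) - 2 ^ (i : ℕ)))) := by
    intro i c
    induction c with
    | zero => simpa using h1
    | succ c ih =>
      rw [pow_succ, Nat.succ_mul]
      exact key _ _ _ _ ih ⟨X_mem_Hi i le_rfl, hX i⟩
  have hprod : ∀ s : Finset (Fin (m + 1)),
      ((∏ i ∈ s, (X i : D (m + 1)) ^ b i) ∈
        Hi (m + 1) (∑ i ∈ s, b i * (2 ^ (m + 1) - 2 ^ (i : ℕ))) ∧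
      E m k (∏ i ∈ s, (X i : D (m + 1)) ^ b i) ∈
        Hi (m + 1) (∑ i ∈ s, b i * (2 ^ (m + 1) - 2 ^ (i : ℕ)))) := by
    intro s
    induction s using Finset.induction_on with
    | empty => simpa using h1
    | insert a s ha ih =>
      rw [Finset.sum_insert ha, Finset.prod_insert ha]
      exact key _ _ _ _ (hpow a (b a)) ih
  rw [mono_eq_prod]
  exact (hprod _).2

lemma E0_mono (b : Fin (m + 1) → ℕ) : E m 0 (mono b) = ((b 0 : ℕ) : ZMod 2) • mono b := by
  have hE : E m 0 = Ed m 0 := by unfold E; rw [if_pos (Nat.zero_le _)]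
  rw [hE, Ed_eq 0 (Nat.zero_le _)]
  unfold mono
  have h0 : (⟨0, by omega⟩ : Fin (m + 1)) = 0 := rfl
  rw [h0, pderiv_monomial, one_mul]
  have hb : (Finsupp.equivFunOnFinite.symm b) (0 : Fin (m + 1)) = b 0 := rfl
  rw [hb, X, monomial_mul, one_mul, smul_monomial, smul_eq_mul, mul_one]
  rcases Nat.eq_zero_or_pos (b 0) with h | h
  · rw [h]; simp
  · refine congrArg (fun s => monomial s ((b 0 : ℕ) : ZMod 2)) ?_
    ext i
    simp only [Finsupp.add_apply, Finsupp.tsub_apply, Finsupp.equivFunOnFinite_symm_apply_apply]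
    rw [Finsupp.single_apply]
    split_ifs with h2
    · subst h2; omega
    · omega

lemma weight_cast (b : Fin (m + 1) → ℕ) : ((weight b : ℕ) : ZMod 2) = ((b 0 : ℕ) : ZMod 2) := by
  have h2 : (2 : ZMod 2) = 0 := by decide
  unfold weight
  rw [Fin.sum_univ_succ]
  push_cast
  rw [Nat.cast_sub (Nat.pow_le_pow_right (by norm_num) (by simp))]
  have : ∀ i : Fin m, ((b i.succ : ℕ) : ZMod 2) *
      ((2 ^ (m + 1) - 2 ^ (i.succ : ℕ) : ℕ) : ZMod 2) = 0 := by
    intro i
    rw [Fin.val_succ, Nat.cast_sub (Nat.pow_le_pow_right (by norm_num) (by have := i.2; omega))]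
    push_cast
    rw [pow_succ, pow_succ, h2]
    ring
  rw [Finset.sum_eq_zero (fun i _ => this i)]
  push_cast
  rw [pow_succ, h2]
  simp

lemma Ann.E0 {a d : ℕ} {x : D (m + 1) →ₗ[ZMod 2] ZMod 2} (hx : Ann m a d x) (g : D (m + 1)) :
    x (E m 0 g) = (d : ZMod 2) * x g := by
  induction g using mono_induction with
  | h0 => simp
  | ha f g hf hg => rw [map_add, map_add, map_add, hf, hg]; ring
  | hm b =>
    rw [E0_mono, map_smul, smul_eq_mul]
    by_cases h : weight b = d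
    · rw [← h, weight_cast]
    · rw [hx.deg b h, mul_zero, mul_zero]

lemma Ann.zero_on_Hi {a d w : ℕ} {x : D (m + 1) →ₗ[ZMod 2] ZMod 2} (hx : Ann m a d x)
    (hw : d < w) {f : D (m + 1)} (hf : f ∈ Hi (m + 1) w) : x f = 0 :=
  H968.zero_on_Hi (fun b hb => hx.deg b (by omega)) hf

/-- The Milnor primitives act trivially. -/
lemma Ann.E_zero {a d : ℕ} {x : D (m + 1) →ₗ[ZMod 2] ZMod 2} (hx : Ann m a d x) (k : ℕ)
    (hk : k ≤ m) (g : D (m + 1)) : x (E m (k + 1) (X 0 ^ a * g)) = 0 := by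
  have h : ∀ k, (∀ g, x (E m (k + 1) (sq (m + 1) (X 0 ^ a * g))) = 0) →
      ∀ g, x (E m (k + 1) (X 0 ^ a * g)) = 0 := by
    intro k hk
    exact unip' a d (x ∘ₗ (E m (k + 1)).toLinearMap)
      (fun b hb => hx.zero_on_Hi hb (E_mono_mem (k + 1) b)) hk
  revert g
  induction k with
  | zero =>
    apply h
    intro g
    rw [star 0 (Nat.zero_le _), map_add, hx.E0]
    obtain ⟨g', hg'⟩ := E_stable a 0 g
    rw [hg', hx.ann, ← hg', hx.E0, hx.ann, CharTwo.add_self_eq_zero]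
  | succ k ih =>
    apply h
    intro g
    rw [star (k + 1) hk, map_add]
    obtain ⟨g', hg'⟩ := E_stable a (k + 1) g
    rw [hg', hx.ann, ← hg', ih (by omega), zero_add, sq_X0_pow_mul]
    exact ih (by omega) _

/-! ### The Z step -/

/-- exponents before the halving operator. -/
def liftE (c : Fin (m + 1) → ℕ) : Fin (m + 1) → ℕ :=
  fun i => if i = 0 then 2 * c 0 + 1 - m else 2 * c i + 1

lemma liftE_rich {c : Fin (m + 1) → ℕ} (h : m ≤ 2 * c 0 + 1) : Rich (liftE c) := by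
  refine ⟨fun i hi => ?_, ?_⟩
  · unfold liftE; rw [if_neg hi]; exact ⟨c i, rfl⟩
  · unfold liftE; rw [if_pos rfl]; exact ⟨c 0, by omega⟩

lemma hf_liftE {c : Fin (m + 1) → ℕ} (h : m ≤ 2 * c 0 + 1) : hf (liftE c) = c := by
  funext i
  unfold hf liftE
  by_cases hi : i = 0
  · subst hi; simp; omega
  · simp only [if_neg hi]; omega

lemma liftE_hf {b : Fin (m + 1) → ℕ} (h : Rich b) : liftE (hf b) = b := by
  funext i
  unfold hf liftE
  by_cases hi : i = 0
  · subst hi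
    obtain ⟨k, hk⟩ := h.2
    simp
    omega
  · obtain ⟨k, hk⟩ := h.1 i hi
    simp only [if_neg hi]
    omega

lemma weight_int (b : Fin n → ℕ) :
    ((weight b : ℕ) : ℤ) = ∑ i, (b i : ℤ) * (2 ^ n - 2 ^ (i : ℕ)) := by
  unfold weight
  push_cast
  apply Finset.sum_congr rfl
  intro i _
  rw [Nat.cast_sub (Nat.pow_le_pow_right (by norm_num) (le_of_lt i.2))]
  push_cast
  rfl

lemma sum_pow_int (m : ℕ) : ∑ i : Fin m, (2 : ℤ) ^ ((i : ℕ) + 1) = 2 ^ (m + 1) - 2 := by
  induction m with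
  | zero => simp
  | succ m ih =>
    rw [Fin.sum_univ_castSucc]
    simp only [Fin.val_castSucc, Fin.val_last]
    rw [ih]
    ring

lemma weight_liftE {c : Fin (m + 1) → ℕ} (h : m ≤ 2 * c 0 + 1) :
    weight (liftE c) = 2 * weight c + (m + 1) := by
  zify
  rw [weight_int, weight_int, Fin.sum_univ_succ, Fin.sum_univ_succ]
  have h0 : ((liftE c 0 : ℕ) : ℤ) = 2 * c 0 + 1 - m := by
    unfold liftE; rw [if_pos rfl]; push_cast [Nat.cast_sub h]; ring
  have hi : ∀ i : Fin m, ((liftE c i.succ : ℕ) : ℤ) = 2 * c i.succ + 1 := by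
    intro i; unfold liftE; rw [if_neg (Fin.succ_ne_zero i)]; push_cast; ring
  rw [h0]
  simp only [hi, Fin.val_succ, Fin.val_zero]
  have hs : ∑ i : Fin m, (2 * (c i.succ : ℤ) + 1) * (2 ^ (m + 1) - 2 ^ ((i : ℕ) + 1)) =
      2 * ∑ i : Fin m, (c i.succ : ℤ) * (2 ^ (m + 1) - 2 ^ ((i : ℕ) + 1)) +
      ((m : ℤ) * 2 ^ (m + 1) - ∑ i : Fin m, (2 : ℤ) ^ ((i : ℕ) + 1)) := by
    rw [Finset.mul_sum]
    have : (m : ℤ) * 2 ^ (m + 1) = ∑ _i : Fin m, (2 : ℤ) ^ (m + 1) := by simp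
    rw [this, ← Finset.sum_sub_distrib, ← Finset.sum_add_distrib]
    apply Finset.sum_congr rfl
    intro i _
    ring
  rw [hs, sum_pow_int]
  ring

/-- A monomial in the ideal of `Q_0^(a+1)` on which the halving operator vanishes is an image of a
Milnor primitive on the ideal of `Q_0^a`. -/
lemma Ann.not_rich {a d : ℕ} {x : D (m + 1) →ₗ[ZMod 2] ZMod 2} (hx : Ann m a d x)
    {b : Fin (m + 1) → ℕ} (hb : a + 1 ≤ b 0) (hr : ¬ Rich b) : x (mono b) = 0 := by
  by_cases hodd : ∀ i, i ≠ 0 → Odd (b i)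
  · have h0 : ¬ Odd (b 0 + m) := fun h => hr ⟨hodd, h⟩
    let b' : Fin (m + 1) → ℕ := fun i => if i = 0 then b 0 - 1 else b i
    have hb' : a ≤ b' 0 := by simp [b']; omega
    have hpar : Odd (∑ i, b' i) := by
      have h1 : Even (∑ i : Fin m, (b' i.succ + 1)) := by
        apply Finset.even_sum
        intro i _
        have : b' i.succ = b i.succ := by simp [b', Fin.succ_ne_zero]
        rw [this]
        exact (hodd _ (Fin.succ_ne_zero i)).add_one
      rw [Finset.sum_add_distrib] at h1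
      simp only [Finset.sum_const, Finset.card_univ, Fintype.card_fin, smul_eq_mul, mul_one] at h1
      rw [Fin.sum_univ_succ]
      have hb0 : b' 0 = b 0 - 1 := by simp [b']
      rw [hb0]
      rw [Nat.not_odd_iff_even] at h0
      obtain ⟨u, hu⟩ := h0
      obtain ⟨v, hv⟩ := h1
      refine ⟨u + v - m - 1, ?_⟩
      omega
    have hE : E m (m + 1) = Eu m := by unfold E; rw [if_neg (by omega)]
    have h1 := hx.E_zero m le_rfl (mono (b' - Pi.single 0 a))
    rw [← mono_of_ge hb', hE, Eu_mono, if_pos hpar] at h1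
    rw [← h1]
    congr 2
    funext i
    by_cases hi : i = 0
    · subst hi; simp [b']; omega
    · simp [b', hi]
  · push Not at hodd
    obtain ⟨i, hi, hev⟩ := hodd
    have hi1 : 1 ≤ (i : ℕ) := by
      rcases Nat.eq_zero_or_pos (i : ℕ) with h | h
      · exact absurd (Fin.ext h) hi
      · exact h
    let b' : Fin (m + 1) → ℕ := fun j => if j = 0 then b 0 - 1 else if j = i then b i + 1 else b j
    have hb' : a ≤ b' 0 := by simp [b']; omega
    have hE : E m (i : ℕ) = Ed m (i : ℕ) := by unfold E; rw [if_pos (by omega)]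
    have h1 := hx.E_zero ((i : ℕ) - 1) (by omega) (mono (b' - Pi.single 0 a))
    rw [Nat.sub_add_cancel hi1, ← mono_of_ge hb', hE, Ed_mono _ hi1 (by omega)] at h1
    have hodd' : Odd (b' ⟨(i : ℕ), by omega⟩) := by
      have : b' ⟨(i : ℕ), by omega⟩ = b i + 1 := by
        show b' i = _
        simp [b', hi]
      rw [this]
      rw [Nat.not_odd_iff_even] at hev
      exact hev.add_one
    rw [if_pos hodd'] at h1
    rw [← h1]
    congr 2
    funext j
    by_cases hj : j = 0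
    · subst hj; simp [b']; omega
    · by_cases hji : j = i
      · subst hji; simp [b', hj]
      · have : (j : ℕ) ≠ i := fun h => hji (Fin.ext h)
        simp [b', hj, hji, this]

open Classical in
/-- The Z step. -/
theorem zstep {a d : ℕ} {x : D (m + 1) →ₗ[ZMod 2] ZMod 2} (hx : Ann m a d x)
    (hne : ∃ g, x (X 0 ^ (a + 1) * g) ≠ 0) :
    ∃ d' x', d = 2 * d' + (m + 1) ∧ Ann m ((a + m + 1) / 2) d' x' ∧
      ∀ g, x (X 0 ^ (a + 1) * g) = x' (kap m (X 0 ^ (a + 1) * g)) := by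
  obtain ⟨g, hg⟩ := hne
  obtain ⟨b, hb, hxb⟩ := exists_mono_ne hg
  have hr : Rich b := by
    by_contra h
    exact hxb (hx.not_rich hb h)
  have hwb : weight b = d := by
    by_contra h
    exact hxb (hx.deg b h)
  have hb0 : m ≤ 2 * hf b 0 + 1 := by
    obtain ⟨k, hk⟩ := hr.2
    unfold hf
    rw [if_pos rfl]
    omega
  have hd : d = 2 * weight (hf b) + (m + 1) := by
    rw [← hwb, ← weight_liftE hb0, liftE_hf hr]
  let x' : D (m + 1) →ₗ[ZMod 2] ZMod 2 :=
    lin (fun c => if m ≤ 2 * c 0 + 1 then x (mono (liftE c)) else 0)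
  have hx' : ∀ c, x' (mono c) = if m ≤ 2 * c 0 + 1 then x (mono (liftE c)) else 0 :=
    fun c => lin_mono _ c
  have key1 : ∀ g, x (X 0 ^ (a + 1) * g) = x' (kap m (X 0 ^ (a + 1) * g)) := by
    apply ext_ge (B := x' ∘ₗ kap m)
    intro c hc
    rw [LinearMap.comp_apply, kap_mono]
    by_cases h : Rich c
    · have hc0 : m ≤ 2 * hf c 0 + 1 := by
        obtain ⟨k, hk⟩ := h.2
        unfold hf
        rw [if_pos rfl]
        omega
      rw [if_pos h, hx', if_pos hc0, liftE_hf h]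
    · rw [if_neg h, map_zero]
      exact hx.not_rich hc h
  refine ⟨weight (hf b), x', hd, ⟨?_, ?_⟩, key1⟩
  · intro c hc
    rw [hx']
    split_ifs with h
    · apply hx.deg
      rw [weight_liftE h, hd]
      omega
    · rfl
  · apply ext_ge (A := x' ∘ₗ (sq (m + 1)).toLinearMap) (B := x')
    intro c hc
    rw [LinearMap.comp_apply, AlgHom.toLinearMap_apply]
    have hc0 : m ≤ 2 * c 0 + 1 := by omega
    have hl : a + 1 ≤ liftE c 0 := by unfold liftE; rw [if_pos rfl]; omega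
    have e1 : mono c = kap m (mono (liftE c)) := by
      rw [kap_mono, if_pos (liftE_rich hc0), hf_liftE hc0]
    have e2 : x' (kap m (mono (liftE c))) = x (mono (liftE c)) := by
      rw [mono_of_ge hl, ← key1]
    rw [e1, ← kap_sq_comm, e2]
    have e3 : x (sq (m + 1) (mono (liftE c))) = x (mono (liftE c)) := by
      rw [mono_of_ge (show a ≤ liftE c 0 by omega), hx.ann]
    rw [← e3, mono_of_ge hl, sq_X0_pow_mul, ← key1]

end

end Vale.Agent.P263.H968
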