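import Vale.Agent.P263.H968.Words
import Mathlib.Analysis.SpecificLimits.Normed
import Mathlib.Analysis.SpecialFunctions.Pow.Real

/-!
The final bound for the number of exceptional degrees.
-/

namespace Vale.Agent.P263.H968

open Finset Filter Topology

noncomputable section

/-- polynomial times exponentially decaying is bounded. -/
lemma exists_bound (r : ℝ) (h0 : 0 ≤ r) (h1 : r < 1) :
    ∃ C : ℝ, 0 < C ∧ ∀ l : ℕ, ((l : ℝ) + 1) ^ 3 * r ^ (l / 6) ≤ C := by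
  have ht : Tendsto (fun n : ℕ => (n : ℝ) ^ 3 * r ^ n) atTop (𝓝 0) :=
    tendsto_pow_const_mul_const_pow_of_abs_lt_one 3 (by rw [abs_of_nonneg h0]; exact h1)
  obtain ⟨B, hB⟩ := ht.bddAbove_range
  have hB' : ∀ n : ℕ, (n : ℝ) ^ 3 * r ^ n ≤ B := fun n => hB ⟨n, rfl⟩
  have hgeo : ∀ n : ℕ, r ^ n ≤ 1 := fun n => pow_le_one₀ h0 h1.le
  refine ⟨1000 * (|B| + 1), by positivity, fun l => ?_⟩
  set q := l / 6 with hq
  have h2 : (l : ℝ) + 1 ≤ 6 * ((q : ℝ) + 1) := by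
    have : l + 1 ≤ 6 * (q + 1) := by omega
    exact_mod_cast this
  have h3 : ((l : ℝ) + 1) ^ 3 ≤ (6 * ((q : ℝ) + 1)) ^ 3 := by
    apply pow_le_pow_left₀ (by positivity) h2
  have hr : 0 ≤ r ^ q := pow_nonneg h0 q
  calc ((l : ℝ) + 1) ^ 3 * r ^ q ≤ (6 * ((q : ℝ) + 1)) ^ 3 * r ^ q :=
        mul_le_mul_of_nonneg_right h3 hr
    _ ≤ (216 * (4 * ((q : ℝ) ^ 3 + 1))) * r ^ q := by
        apply mul_le_mul_of_nonneg_right _ hr
        have hq0 : (0 : ℝ) ≤ q := Nat.cast_nonneg q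
        nlinarith [mul_nonneg (add_nonneg hq0 (zero_le_one (α := ℝ))) (sq_nonneg ((q : ℝ) - 1))]
    _ = 864 * ((q : ℝ) ^ 3 * r ^ q) + 864 * r ^ q := by ring
    _ ≤ 864 * |B| + 864 * 1 := by
        have := (hB' q).trans (le_abs_self B)
        have := hgeo q
        nlinarith
    _ ≤ 1000 * (|B| + 1) := by
        have := abs_nonneg B
        nlinarith

lemma rate_lt_one : (63 / 64 : ℝ) * 2 ^ (1 / 50 : ℝ) < 1 := by
  have h1 : (2 : ℝ) ^ (1 / 50 : ℝ) < 64 / 63 := by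
    have h2 : (2 : ℝ) < (64 / 63) ^ (50 : ℕ) := by norm_num
    have h3 : (2 : ℝ) ^ (1 / 50 : ℝ) < ((64 / 63 : ℝ) ^ (50 : ℕ)) ^ (1 / 50 : ℝ) :=
      Real.rpow_lt_rpow (by norm_num) h2 (by norm_num)
    have h4 : ((64 / 63 : ℝ) ^ (50 : ℕ)) ^ (1 / 50 : ℝ) = 64 / 63 := by
      rw [← Real.rpow_natCast, ← Real.rpow_mul (by norm_num)]
      norm_num
    rwa [h4] at h3
  nlinarith

/-- The main numerical bound. -/
lemma numeric_bound : ∃ C : ℝ, 0 < C ∧ ∀ N : ℕ, 1 ≤ N →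
    (((Nat.log 2 (N + 1) + 1) ^ 3 * (32 * 63 ^ (Nat.log 2 (N + 1) / 6)) : ℕ) : ℝ) ≤
      C * (N : ℝ) ^ (299 / 300 : ℝ) := by
  obtain ⟨C, hC, hb⟩ := exists_bound ((63 / 64 : ℝ) * 2 ^ (1 / 50 : ℝ)) (by positivity) rate_lt_one
  refine ⟨128 * C, by positivity, fun N hN => ?_⟩
  set l := Nat.log 2 (N + 1) with hl
  have hlow : 2 ^ l ≤ N + 1 := Nat.pow_log_le_self 2 (by omega)
  have hup : N + 1 < 2 ^ (l + 1) := Nat.lt_pow_succ_log_self (by norm_num) _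
  have hN0 : (0 : ℝ) < N := by exact_mod_cast hN
  have e1 : (2 : ℝ) ^ (6 * (l / 6)) ≤ 2 * N := by
    have h1 : (2 : ℝ) ^ (6 * (l / 6)) ≤ 2 ^ l := pow_le_pow_right₀ (by norm_num) (by omega)
    have h2 : ((2 : ℝ) ^ l) ≤ N + 1 := by exact_mod_cast hlow
    have h3 : (1 : ℝ) ≤ N := by exact_mod_cast hN
    linarith
  -- `N^(1/300) ≤ 2 * (2^(1/50))^(l/6)`
  have e2 : (N : ℝ) ^ (1 / 300 : ℝ) ≤ 2 * ((2 : ℝ) ^ (1 / 50 : ℝ)) ^ (l / 6) := by
    have h1 : (N : ℝ) ≤ 2 ^ ((l : ℝ) + 1) := by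
      have : (N : ℝ) ≤ (2 : ℝ) ^ (l + 1) := by
        have : N ≤ 2 ^ (l + 1) := by omega
        exact_mod_cast this
      rw [← Real.rpow_natCast] at this
      push_cast at this
      exact this
    have h2 : (N : ℝ) ^ (1 / 300 : ℝ) ≤ (2 ^ ((l : ℝ) + 1)) ^ (1 / 300 : ℝ) :=
      Real.rpow_le_rpow hN0.le h1 (by norm_num)
    rw [← Real.rpow_mul (by norm_num)] at h2
    have h3 : (2 : ℝ) * ((2 : ℝ) ^ (1 / 50 : ℝ)) ^ (l / 6) =
        2 ^ ((1 : ℝ) + (1 / 50) * ((l / 6 : ℕ) : ℝ)) := by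
      rw [Real.rpow_add (by norm_num), Real.rpow_one, Real.rpow_mul (by norm_num),
        Real.rpow_natCast]
    rw [h3]
    refine h2.trans (Real.rpow_le_rpow_of_exponent_le (by norm_num) ?_)
    have h4 : (l : ℝ) + 1 ≤ 6 * (((l / 6 : ℕ) : ℝ) + 1) := by
      have : l + 1 ≤ 6 * (l / 6 + 1) := by omega
      exact_mod_cast this
    linarith
  have e3 : (N : ℝ) = (N : ℝ) ^ (299 / 300 : ℝ) * (N : ℝ) ^ (1 / 300 : ℝ) := by
    rw [← Real.rpow_add hN0]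
    norm_num
  have hb' := hb l
  have e4 : (63 : ℝ) ^ (l / 6) = (63 / 64) ^ (l / 6) * 2 ^ (6 * (l / 6)) := by
    rw [pow_mul, ← mul_pow]
    norm_num
  push_cast
  rw [e4]
  have p1 : (0 : ℝ) ≤ (63 / 64 : ℝ) ^ (l / 6) := by positivity
  have p2 : (0 : ℝ) ≤ (N : ℝ) ^ (299 / 300 : ℝ) := by positivity
  calc ((l : ℝ) + 1) ^ 3 * (32 * ((63 / 64) ^ (l / 6) * 2 ^ (6 * (l / 6))))
      = 32 * (((l : ℝ) + 1) ^ 3 * (63 / 64) ^ (l / 6)) * 2 ^ (6 * (l / 6)) := by ring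
    _ ≤ 32 * (((l : ℝ) + 1) ^ 3 * (63 / 64) ^ (l / 6)) * (2 * N) :=
        mul_le_mul_of_nonneg_left e1 (by positivity)
    _ = 64 * (((l : ℝ) + 1) ^ 3 * (63 / 64) ^ (l / 6)) * (N : ℝ) := by ring
    _ = 64 * (((l : ℝ) + 1) ^ 3 * (63 / 64) ^ (l / 6)) *
        ((N : ℝ) ^ (299 / 300 : ℝ) * (N : ℝ) ^ (1 / 300 : ℝ)) := by rw [← e3]
    _ ≤ 64 * (((l : ℝ) + 1) ^ 3 * (63 / 64) ^ (l / 6)) *
        ((N : ℝ) ^ (299 / 300 : ℝ) * (2 * ((2 : ℝ) ^ (1 / 50 : ℝ)) ^ (l / 6))) := by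
        apply mul_le_mul_of_nonneg_left _ (by positivity)
        exact mul_le_mul_of_nonneg_left e2 p2
    _ = 128 * (((l : ℝ) + 1) ^ 3 * ((63 / 64 : ℝ) * 2 ^ (1 / 50 : ℝ)) ^ (l / 6)) *
        (N : ℝ) ^ (299 / 300 : ℝ) := by rw [mul_pow]; ring
    _ ≤ 128 * C * (N : ℝ) ^ (299 / 300 : ℝ) := by
        apply mul_le_mul_of_nonneg_right _ p2
        exact mul_le_mul_of_nonneg_left hb' (by norm_num)

open Classical in
/-- The number of `d ≤ N` of the form `2^k e` with `e` exceptional is at most `C N^(299/300)`. -/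
theorem card_exc : ∃ C : ℝ, ∀ N : ℕ,
    (((range (N + 1)).filter (fun d => 1 ≤ d ∧ ∃ k e, d = 2 ^ k * e ∧ Exc e)).card : ℝ) ≤
      C * (N : ℝ) ^ (299 / 300 : ℝ) := by
  obtain ⟨C, hC, hb⟩ := numeric_bound
  refine ⟨C, fun N => ?_⟩
  rcases Nat.eq_zero_or_pos N with rfl | hN
  · have : ((range (0 + 1)).filter (fun d => 1 ≤ d ∧ ∃ k e, d = 2 ^ k * e ∧ Exc e)) = ∅ := by
      apply Finset.filter_eq_empty_iff.mpr
      intro d hd
      rw [Finset.mem_range] at hd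
      omega
    rw [this]
    simp
  · refine le_trans ?_ (hb N hN)
    norm_cast
    set l := Nat.log 2 (N + 1) with hl
    have hsub : ((range (N + 1)).filter (fun d => 1 ≤ d ∧ ∃ k e, d = 2 ^ k * e ∧ Exc e)) ⊆
        (range (l + 1)).biUnion (fun k =>
          ((allw N).image (fun w => val (w.count false) 1 w)).image (fun e => 2 ^ k * e)) := by
      intro d hd
      rw [Finset.mem_filter, Finset.mem_range] at hd
      obtain ⟨hdN, hd1, k, e, rfl, he⟩ := hd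
      have he1 : 1 ≤ e := by
        rcases Nat.eq_zero_or_pos e with rfl | h
        · simp at hd1
        · exact h
      have hk : 2 ^ k ≤ N + 1 := by nlinarith [Nat.one_le_two_pow (n := k)]
      rw [Finset.mem_biUnion]
      refine ⟨k, Finset.mem_range.mpr ?_, ?_⟩
      · have := Nat.le_log_of_pow_le (by norm_num) hk
        omega
      · rw [Finset.mem_image]
        refine ⟨e, he.mem ?_, rfl⟩
        nlinarith [Nat.one_le_two_pow (n := k)]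
    have h1 := Finset.card_le_card hsub
    refine h1.trans (Finset.card_biUnion_le.trans ?_)
    have h2 : ∀ k ∈ range (l + 1), (((allw N).image (fun w => val (w.count false) 1 w)).image
        (fun e => 2 ^ k * e)).card ≤ (l + 1) ^ 2 * (32 * 63 ^ (l / 6)) := by
      intro k _
      exact Finset.card_image_le.trans (Finset.card_image_le.trans (card_allw N))
    refine (Finset.sum_le_sum h2).trans ?_
    rw [Finset.sum_const, Finset.card_range, smul_eq_mul]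
    apply le_of_eq
    ring

end

end Vale.Agent.P263.H968
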