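import Mathlib.Algebra.MvPolynomial.Eval
import Mathlib.RingTheory.MvPolynomial.Homogeneous
import Mathlib.Algebra.Polynomial.Basic
import Mathlib.Algebra.Field.ZMod

/-!
The Dickson algebra inside the polynomial ring in `n` variables of degree one over the field with
two elements, with its action of the Steenrod algebra.
-/

namespace Vale.Agent.P263.H968

noncomputable section

/-- The total Steenrod square `Sq = Sq^0 + Sq^1 + Sq^2 + ...` on `F_2[x_1, ..., x_n]`: the ring
homomorphism with `x_i ↦ x_i + x_i ^ 2`. -/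
def totalSq (n : ℕ) :
    MvPolynomial (Fin n) (ZMod 2) →ₐ[ZMod 2] MvPolynomial (Fin n) (ZMod 2) :=
  MvPolynomial.aeval fun i => MvPolynomial.X i + MvPolynomial.X i ^ 2

/-- The Steenrod square `Sq^r f` of a homogeneous polynomial `f` of degree `e`: the component of
degree `e + r` of the total square of `f`. -/
def Sq (n e r : ℕ) (f : MvPolynomial (Fin n) (ZMod 2)) : MvPolynomial (Fin n) (ZMod 2) :=
  MvPolynomial.homogeneousComponent (e + r) (totalSq n f)

/-- The linear form `v_1 x_1 + ... + v_n x_n`. -/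
def linForm {n : ℕ} (v : Fin n → ZMod 2) : MvPolynomial (Fin n) (ZMod 2) :=
  ∑ i, v i • MvPolynomial.X i

/-- The product of `T + l` over all `2^n` linear forms `l` in `x_1, ..., x_n`. -/
def dicksonPoly (n : ℕ) : Polynomial (MvPolynomial (Fin n) (ZMod 2)) :=
  ∏ v : Fin n → ZMod 2, (Polynomial.X + Polynomial.C (linForm v))

/-- The Dickson invariant `Q_{n,j}`, the coefficient of `T^(2^j)` in `dicksonPoly n`, of degree
`2^n - 2^j`. -/
def dickson (n j : ℕ) : MvPolynomial (Fin n) (ZMod 2) := (dicksonPoly n).coeff (2 ^ j)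

/-- The Dickson algebra `D_n = F_2[Q_{n,0}, ..., Q_{n,n-1}]`. -/
def dicksonAlgebra (n : ℕ) : Subalgebra (ZMod 2) (MvPolynomial (Fin n) (ZMod 2)) :=
  Algebra.adjoin (ZMod 2) {f | ∃ j < n, f = dickson n j}

/-- The ideal `Q_{n,0}^a D_n` of the Dickson algebra `D_n`; for `a = 0` it is `D_n` itself. -/
def dicksonIdeal (n a : ℕ) : Set (MvPolynomial (Fin n) (ZMod 2)) :=
  {f | ∃ g ∈ dicksonAlgebra n, f = dickson n 0 ^ a * g}

/-- The span of all `Sq^r g` of degree `d` with `r ≥ 1` and `g` homogeneous in `M`. -/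
def hits (n : ℕ) (M : Set (MvPolynomial (Fin n) (ZMod 2))) (d : ℕ) :
    Submodule (ZMod 2) (MvPolynomial (Fin n) (ZMod 2)) :=
  Submodule.span (ZMod 2) {h | ∃ e r, 1 ≤ r ∧ e + r = d ∧ ∃ g ∈ M,
    g.IsHomogeneous e ∧ h = Sq n e r g}

/-- `F_2 ⊗_A M` is nonzero in degree `d`: some homogeneous element of `M` of degree `d` is not a sum
of elements `Sq^r g` with `r ≥ 1` and `g` in `M`. -/
def HasGenerator (n : ℕ) (M : Set (MvPolynomial (Fin n) (ZMod 2))) (d : ℕ) : Prop :=
  ∃ f ∈ M, f.IsHomogeneous d ∧ f ∉ hits n M d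

end

end Vale.Agent.P263.H968
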