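import Mathlib.Algebra.MvPolynomial.Derivation
import Mathlib.Algebra.MvPolynomial.PDeriv
import Mathlib.Algebra.MvPolynomial.Division
import Mathlib.RingTheory.MvPolynomial.WeightedHomogeneous
import Mathlib.RingTheory.MvPolynomial.Homogeneous
import Mathlib.Algebra.CharP.Two
import Mathlib.Tactic

/-!
The abstract Dickson algebra: the polynomial ring on symbols `X 0, ..., X m` (the Dickson
polynomials of rank `m + 1`), with the total Steenrod square and the Milnor primitives.
-/

namespace Vale.Agent.P263.H968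

open MvPolynomial Finset

/-- The polynomial ring on `n` symbols over the field with two elements. -/
abbrev D (n : ℕ) := MvPolynomial (Fin n) (ZMod 2)

noncomputable section

variable {m : ℕ}

/-- `1 + Q_0 + ... + Q_{n-1}`. -/
def S (n : ℕ) : D n := 1 + ∑ j, X j

/-- `Q_0 + ... + Q_i`. -/
def T {n : ℕ} (i : Fin n) : D n := ∑ j ∈ univ.filter (fun j => j ≤ i), X j

/-- The total Steenrod square of `Q_i`. -/
def sqGen {n : ℕ} (i : Fin n) : D n := S n * T i + ∑ j ∈ univ.filter (fun j => j < i), X j ^ 2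

/-- The total Steenrod square. -/
def sq (n : ℕ) : D n →ₐ[ZMod 2] D n := aeval sqGen

lemma sq_X {n : ℕ} (i : Fin n) : sq n (X i) = sqGen i := by simp [sq]

instance {n : ℕ} : CharP (D n) 2 := inferInstance

lemma T_zero : T (0 : Fin (m + 1)) = X 0 := by
  unfold T
  have : univ.filter (fun j : Fin (m + 1) => j ≤ 0) = {0} := by
    ext j; simp
  rw [this]; simp

lemma sq_X_zero : sq (m + 1) (X 0) = S (m + 1) * X 0 := by
  rw [sq_X, sqGen, T_zero]
  have : univ.filter (fun j : Fin (m + 1) => j < 0) = ∅ := by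
    ext j; simp
  rw [this]; simp

/-- The Milnor primitives with a single nonzero value on the generators. -/
def Ed (m k : ℕ) : Derivation (ZMod 2) (D (m + 1)) (D (m + 1)) :=
  mkDerivation (ZMod 2) (fun i => if (i : ℕ) = k then X 0 else 0)

/-- The top Milnor primitive. -/
def Eu (m : ℕ) : Derivation (ZMod 2) (D (m + 1)) (D (m + 1)) :=
  mkDerivation (ZMod 2) (fun i => X 0 * X i)

/-- The Milnor primitives `E 0` (Euler), `E 1 = Sq^1`, ..., `E (m+1)`. -/
def E (m k : ℕ) : Derivation (ZMod 2) (D (m + 1)) (D (m + 1)) :=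
  if k ≤ m then Ed m k else Eu m

lemma Ed_X (k : ℕ) (i : Fin (m + 1)) : Ed m k (X i) = if (i : ℕ) = k then X 0 else 0 := by
  simp [Ed, mkDerivation_X]

lemma Eu_X (i : Fin (m + 1)) : Eu m (X i) = X 0 * X i := by
  simp [Eu, mkDerivation_X]

lemma der_sq {n : ℕ} (A : Derivation (ZMod 2) (D n) (D n)) (f : D n) : A (f ^ 2) = 0 := by
  rw [pow_two, A.leibniz, smul_eq_mul, CharTwo.add_self_eq_zero]

lemma der_sum_sq {n : ℕ} (A : Derivation (ZMod 2) (D n) (D n)) (s : Finset (Fin n)) :
    A (∑ j ∈ s, X j ^ 2) = 0 := by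
  rw [map_sum]
  exact Finset.sum_eq_zero fun j _ => der_sq A _

lemma Ed_T (k : ℕ) (i : Fin (m + 1)) (hk : k ≤ m) :
    Ed m k (T i) = if k ≤ (i : ℕ) then X 0 else 0 := by
  unfold T
  rw [map_sum]
  simp only [Ed_X]
  split_ifs with h
  · rw [Finset.sum_eq_single (⟨k, by omega⟩ : Fin (m + 1))]
    · simp
    · intro b _ hb
      rw [if_neg]
      intro h'
      exact hb (Fin.ext h')
    · intro h'
      exfalso
      apply h'
      simp only [Finset.mem_filter, Finset.mem_univ, true_and]
      exact h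
  · apply Finset.sum_eq_zero
    intro b hb
    rw [if_neg]
    intro h'
    simp only [Finset.mem_filter, Finset.mem_univ, true_and] at hb
    have : (b : ℕ) ≤ i := hb
    omega

lemma Ed_S (k : ℕ) (hk : k ≤ m) : Ed m k (S (m + 1)) = X 0 := by
  unfold S
  rw [map_add, map_sum, Derivation.map_one_eq_zero, zero_add]
  simp only [Ed_X]
  rw [Finset.sum_eq_single (⟨k, by omega⟩ : Fin (m + 1))]
  · simp
  · intro b _ hb
    rw [if_neg]
    intro h'
    exact hb (Fin.ext h')
  · intro h'; exact absurd (Finset.mem_univ _) h'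

lemma Eu_T (i : Fin (m + 1)) : Eu m (T i) = X 0 * T i := by
  unfold T
  rw [map_sum, Finset.mul_sum]
  exact Finset.sum_congr rfl fun j _ => Eu_X j

lemma Eu_S : Eu m (S (m + 1)) = X 0 * (S (m + 1) + 1) := by
  unfold S
  rw [map_add, map_sum, Derivation.map_one_eq_zero, zero_add]
  have : (1 : D (m + 1)) + ∑ j, X j + 1 = ∑ j, X j := by
    have h : (1 : D (m + 1)) + ∑ j, X j + 1 = (1 + 1) + ∑ j, X j := by ring
    rw [h, CharTwo.add_self_eq_zero, zero_add]
  rw [this, Finset.mul_sum]
  exact Finset.sum_congr rfl fun j _ => Eu_X j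

lemma S_sq (n : ℕ) : S n ^ 2 = 1 + ∑ j, X j ^ 2 := by
  unfold S
  rw [CharTwo.add_sq, one_pow, CharTwo.sum_sq]

/-- Two composites with the total square agree if they do on generators. -/
lemma sqder_ext {n : ℕ} (A B C : Derivation (ZMod 2) (D n) (D n))
    (h : ∀ i, A (sq n (X i)) = sq n (B (X i)) + C (sq n (X i))) (f : D n) :
    A (sq n f) = sq n (B f) + C (sq n f) := by
  induction f using MvPolynomial.induction_on with
  | C a => simp [MvPolynomial.algHom_C]
  | add p q hp hq => simp only [map_add, hp, hq]; ring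
  | mul_X p i hp =>
    simp only [map_mul, Derivation.leibniz, smul_eq_mul, map_add, hp, h i]
    ring

lemma star_lt (k : ℕ) (hk : k < m) (f : D (m + 1)) :
    Ed m (k + 1) (sq (m + 1) f) = sq (m + 1) (Ed m k f) + Ed m k (sq (m + 1) f) := by
  apply sqder_ext
  intro i
  rw [Ed_X, sq_X, sqGen, map_add, map_add, der_sum_sq, der_sum_sq, add_zero, add_zero,
    Derivation.leibniz, Derivation.leibniz, Ed_T _ _ (by omega), Ed_T _ _ (by omega),
    Ed_S _ (by omega), Ed_S _ (by omega)]
  simp only [smul_eq_mul]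
  by_cases h1 : (i : ℕ) = k
  · rw [if_neg (by omega), if_pos h1, if_pos (by omega), sq_X_zero]
    rw [← add_assoc, CharTwo.add_self_eq_zero]
    ring
  · rw [if_neg h1, map_zero]
    by_cases h2 : k ≤ (i : ℕ)
    · rw [if_pos (by omega), if_pos h2]; ring
    · rw [if_neg (by omega), if_neg h2]; ring

lemma star_eq (f : D (m + 1)) :
    Eu m (sq (m + 1) f) = sq (m + 1) (Ed m m f) + Ed m m (sq (m + 1) f) := by
  apply sqder_ext
  intro i
  rw [Ed_X, sq_X, sqGen, map_add, map_add, der_sum_sq, der_sum_sq, add_zero, add_zero,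
    Derivation.leibniz, Derivation.leibniz, Ed_T _ _ le_rfl, Eu_T,
    Ed_S _ le_rfl, Eu_S]
  simp only [smul_eq_mul]
  have h2 : ∀ a b : D (m + 1), a * (b * T i) + T i * (b * (a + 1)) = b * T i := by
    intro a b
    have : a * (b * T i) + T i * (b * (a + 1)) = (a * b * T i + a * b * T i) + b * T i := by ring
    rw [this, CharTwo.add_self_eq_zero, zero_add]
  rw [h2]
  by_cases h1 : (i : ℕ) = m
  · rw [if_pos h1, if_pos (by omega), sq_X_zero]
    rw [← add_assoc, CharTwo.add_self_eq_zero]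
    ring
  · have : (i : ℕ) < m + 1 := i.2
    rw [if_neg h1, map_zero, if_neg (by omega)]
    ring

/-- `E_{k+1} Sq = Sq E_k + E_k Sq`. -/
lemma star (k : ℕ) (hk : k ≤ m) (f : D (m + 1)) :
    E m (k + 1) (sq (m + 1) f) = sq (m + 1) (E m k f) + E m k (sq (m + 1) f) := by
  unfold E
  rw [if_pos hk]
  rcases Nat.lt_or_ge k m with h | h
  · rw [if_pos (by omega)]
    exact star_lt k h f
  · have : k = m := le_antisymm hk h
    subst this
    rw [if_neg (by omega)]
    exact star_eq f

/-- The next Milnor primitive, `E_{m+2} = Σ Q_i^2 E_{i+1}`. -/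
def En (m : ℕ) : Derivation (ZMod 2) (D (m + 1)) (D (m + 1)) :=
  ∑ i : Fin (m + 1), (X i ^ 2 : D (m + 1)) • E m ((i : ℕ) + 1)

lemma En_apply (f : D (m + 1)) :
    En m f = ∑ i : Fin (m + 1), (X i ^ 2 : D (m + 1)) * E m ((i : ℕ) + 1) f := by
  unfold En
  have : ∀ s : Finset (Fin (m + 1)),
      (∑ i ∈ s, (X i ^ 2 : D (m + 1)) • E m ((i : ℕ) + 1)) f =
      ∑ i ∈ s, (X i ^ 2 : D (m + 1)) * E m ((i : ℕ) + 1) f := by
    intro s
    induction s using Finset.induction_on with
    | empty => simp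
    | insert a s ha ih =>
      rw [Finset.sum_insert ha, Finset.sum_insert ha, Derivation.add_apply, ih]
      rfl
  exact this _

lemma E_X (k : ℕ) (i : Fin (m + 1)) :
    E m k (X i) = if k ≤ m then (if (i : ℕ) = k then X 0 else 0) else X 0 * X i := by
  unfold E
  split_ifs <;> simp_all [Ed_X, Eu_X]

lemma star_top (f : D (m + 1)) :
    En m (sq (m + 1) f) = sq (m + 1) (E m (m + 1) f) + E m (m + 1) (sq (m + 1) f) := by
  have hE : E m (m + 1) = Eu m := by unfold E; rw [if_neg (by omega)]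
  rw [hE]
  apply sqder_ext
  intro i
  rw [Eu_X, map_mul, sq_X_zero, En_apply]
  have key : ∀ j : Fin (m + 1), E m ((j : ℕ) + 1) (sq (m + 1) (X i)) =
      X 0 * T i + S (m + 1) * (if j < i then X 0 else 0) := by
    intro j
    unfold E
    rw [sq_X, sqGen]
    rcases Nat.lt_or_ge (j : ℕ) m with h | h
    · rw [if_pos (by omega), map_add, der_sum_sq, add_zero, Derivation.leibniz,
        Ed_T _ _ (by omega), Ed_S _ (by omega)]
      simp only [smul_eq_mul]
      have : ((j : ℕ) + 1 ≤ (i : ℕ)) ↔ j < i := by rw [Fin.lt_def]; omega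
      simp only [this]
      ring
    · rw [if_neg (by omega), map_add, der_sum_sq, add_zero, Derivation.leibniz, Eu_T, Eu_S]
      simp only [smul_eq_mul]
      have hj : ¬ (j < i) := by rw [Fin.lt_def]; have := i.2; omega
      rw [if_neg hj]
      have : S (m + 1) * (X 0 * T i) + T i * (X 0 * (S (m + 1) + 1)) =
        (S (m + 1) * X 0 * T i + S (m + 1) * X 0 * T i) + X 0 * T i := by ring
      rw [this, CharTwo.add_self_eq_zero]
      ring
  simp only [key]
  have e1 : Eu m (sq (m + 1) (X i)) = X 0 * T i := by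
    rw [sq_X, sqGen, map_add, der_sum_sq, add_zero, Derivation.leibniz, Eu_T, Eu_S]
    simp only [smul_eq_mul]
    have : S (m + 1) * (X 0 * T i) + T i * (X 0 * (S (m + 1) + 1)) =
        (S (m + 1) * X 0 * T i + S (m + 1) * X 0 * T i) + X 0 * T i := by ring
    rw [this, CharTwo.add_self_eq_zero]
    ring
  rw [e1, sq_X, sqGen]
  have e2 : ∑ j : Fin (m + 1), (X j ^ 2 : D (m + 1)) *
      (X 0 * T i + S (m + 1) * (if j < i then X 0 else 0)) =
      (∑ j : Fin (m + 1), (X j ^ 2 : D (m + 1))) * (X 0 * T i) +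
      S (m + 1) * X 0 * ∑ j ∈ univ.filter (fun j => j < i), X j ^ 2 := by
    rw [Finset.sum_mul, Finset.mul_sum, Finset.sum_filter, ← Finset.sum_add_distrib]
    apply Finset.sum_congr rfl
    intro j _
    split_ifs <;> ring
  have e3 : (∑ j : Fin (m + 1), (X j ^ 2 : D (m + 1))) = S (m + 1) ^ 2 + 1 := by
    rw [S_sq, add_comm (1 : D (m + 1)), add_assoc, CharTwo.add_self_eq_zero, add_zero]
  rw [e2, e3]
  ring

end

end Vale.Agent.P263.H968
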