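import Vale.Agent.P263.H968.Defs
import Vale.Agent.P263.H968.Bound
import Mathlib.RingTheory.Polynomial.Vieta
import Mathlib.LinearAlgebra.Basis.VectorSpace
import Mathlib.Algebra.CharP.Lemmas
import Mathlib.RingTheory.Adjoin.Polynomial.Basic

/-!
Transfer from the abstract Dickson algebra to the Dickson algebra of invariants.
-/

namespace Vale.Agent.P263.H968

noncomputable section

open Finset

/-! ### The Dickson polynomial is additive -/

section lin

open Polynomial

variable {R : Type*} [CommRing R] [Algebra (ZMod 2) R]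

lemma sum_comp' {A ι : Type*} [CommRing A] (s : Finset ι) (f : ι → A[X]) (q : A[X]) :
    (∑ j ∈ s, f j).comp q = ∑ j ∈ s, (f j).comp q := map_sum (Polynomial.compRingHom q) f s

/-- The product of `T + l` over all combinations `l` of the `x i`. -/
def gprod {n : ℕ} (x : Fin n → R) : R[X] :=
  ∏ v : Fin n → ZMod 2, (X + C (∑ i, v i • x i))

lemma prod_cons {M : Type*} [CommMonoid M] {n : ℕ} (f : (Fin (n + 1) → ZMod 2) → M) :
    ∏ v, f v = (∏ v : Fin n → ZMod 2, f (Fin.cons 0 v)) * ∏ v : Fin n → ZMod 2, f (Fin.cons 1 v) := by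
  rw [← Equiv.prod_comp (Fin.consEquiv (fun _ => ZMod 2)), Fintype.prod_prod_type]
  have h : (Finset.univ : Finset (ZMod 2)) = {0, 1} := by decide
  rw [h, Finset.prod_insert (by decide), Finset.prod_singleton]
  rfl

lemma gprod_succ {n : ℕ} (x : Fin (n + 1) → R) :
    gprod x = gprod (fun i => x i.succ) * (gprod (fun i => x i.succ)).comp (X + C (x 0)) := by
  unfold gprod
  rw [prod_cons]
  congr 1
  · apply Finset.prod_congr rfl
    intro v _
    rw [Fin.sum_univ_succ]
    simp
  · rw [Polynomial.prod_comp]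
    apply Finset.prod_congr rfl
    intro v _
    rw [Fin.sum_univ_succ]
    simp [add_assoc]

lemma gprod_lin [CharP R 2] (n : ℕ) : ∀ (x : Fin n → R), ∃ c : ℕ → R, c n = 1 ∧ (∀ j, n < j → c j = 0) ∧
    gprod x = ∑ j ∈ range (n + 1), C (c j) * X ^ (2 ^ j) := by
  induction n with
  | zero =>
    intro x
    refine ⟨fun j => if j = 0 then 1 else 0, by simp, fun j hj => by simp; omega, ?_⟩
    unfold gprod
    simp
  | succ n ih =>
    intro x
    obtain ⟨c, h1, h2, h3⟩ := ih (fun i => x i.succ)
    set g0 : R := ∑ j ∈ range (n + 1), c j * x 0 ^ (2 ^ j) with hg0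
    refine ⟨fun j => (if j = 0 then 0 else c (j - 1) ^ 2) + g0 * c j, ?_, ?_, ?_⟩
    · simp [h1, h2 (n + 1) (by omega)]
    · intro j hj
      have e1 : c (j - 1) = 0 := h2 _ (by omega)
      have e2 : c j = 0 := h2 _ (by omega)
      simp [e1, e2]
    · have e1 : (gprod (fun i => x i.succ)).comp (X + C (x 0)) =
          gprod (fun i => x i.succ) + C g0 := by
        rw [h3]
        simp only [sum_comp', Polynomial.mul_comp, Polynomial.C_comp,
          Polynomial.pow_comp, Polynomial.X_comp]
        rw [hg0, map_sum, ← Finset.sum_add_distrib]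
        apply Finset.sum_congr rfl
        intro j _
        rw [add_pow_char_pow (p := 2) (n := j), map_mul, map_pow]
        ring
      rw [gprod_succ, e1, mul_add, ← pow_two]
      have e2 : gprod (fun i => x i.succ) ^ 2 = ∑ j ∈ range (n + 1), C (c j ^ 2) * X ^ (2 ^ (j + 1)) := by
        rw [h3, CharTwo.sum_sq]
        apply Finset.sum_congr rfl
        intro j _
        rw [mul_pow, ← pow_mul, map_pow, pow_succ 2 j]
      have e3 : gprod (fun i => x i.succ) * C g0 = ∑ j ∈ range (n + 2), C (g0 * c j) * X ^ (2 ^ j) := by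
        rw [Finset.sum_range_succ _ (n + 1), h2 (n + 1) (by omega), h3, Finset.sum_mul]
        simp only [mul_zero, map_zero, zero_mul, add_zero]
        apply Finset.sum_congr rfl
        intro j _
        rw [map_mul]
        ring
      rw [e2, e3]
      have e4 : ∀ j, C ((if j = 0 then 0 else c (j - 1) ^ 2) + g0 * c j) * (X : R[X]) ^ (2 ^ j) =
          C (if j = 0 then 0 else c (j - 1) ^ 2) * X ^ (2 ^ j) + C (g0 * c j) * X ^ (2 ^ j) := by
        intro j
        rw [map_add, add_mul]
      simp only [e4]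
      rw [Finset.sum_add_distrib]
      congr 1
      rw [Finset.sum_range_succ' _ (n + 1)]
      simp

end lin

section

open Polynomial

lemma dicksonPoly_lin (n : ℕ) :
    dickson n n = 1 ∧ dicksonPoly n = ∑ j ∈ range (n + 1), C (dickson n j) * X ^ (2 ^ j) := by
  obtain ⟨c, h1, h2, h3⟩ := gprod_lin n (fun i : Fin n => (MvPolynomial.X i : D n))
  have h4 : dicksonPoly n = ∑ j ∈ range (n + 1), C (c j) * X ^ (2 ^ j) := h3
  have h5 : ∀ j, j ≤ n → dickson n j = c j := by
    intro j hj
    unfold dickson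
    rw [h4, Polynomial.finsetSum_coeff, Finset.sum_eq_single j]
    · simp
    · intro k _ hk
      rw [Polynomial.coeff_C_mul, Polynomial.coeff_X_pow, if_neg, mul_zero]
      intro h
      exact hk (Nat.pow_right_injective (le_refl 2) h).symm
    · intro h
      rw [Finset.mem_range] at h
      omega
  refine ⟨by rw [h5 n le_rfl, h1], ?_⟩
  rw [h4]
  apply Finset.sum_congr rfl
  intro j hj
  rw [Finset.mem_range] at hj
  rw [h5 j (by omega)]

lemma totalSq_linForm {n : ℕ} (v : Fin n → ZMod 2) :
    totalSq n (linForm v) = linForm v + linForm v ^ 2 := by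
  unfold linForm totalSq
  rw [map_sum, CharTwo.sum_sq, ← Finset.sum_add_distrib]
  apply Finset.sum_congr rfl
  intro i _
  rw [map_smul, MvPolynomial.aeval_X, smul_add, smul_pow]
  have : v i ^ 2 = v i := by generalize v i = a; revert a; decide
  rw [this]

/-- The recursion for the total squares of the Dickson invariants. -/
lemma key_identity (n : ℕ) :
    ∑ j ∈ range (n + 1), C (totalSq n (dickson n j)) * (X ^ (2 ^ (j + 1)) + X ^ (2 ^ j)) =
      ∑ j ∈ range (n + 1), (C (dickson n j ^ 2) * X ^ (2 ^ (j + 1)) +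
        C ((∑ k ∈ range (n + 1), dickson n k) * dickson n j) * (X : (D n)[X]) ^ (2 ^ j)) := by
  obtain ⟨-, hlin⟩ := dicksonPoly_lin n
  set s : D n →+* D n := (totalSq n).toRingHom with hs
  have hs' : ∀ f, s f = totalSq n f := fun f => rfl
  have e1 : ((dicksonPoly n).map s).comp (X ^ 2 + X) =
      ∑ j ∈ range (n + 1), C (totalSq n (dickson n j)) * (X ^ (2 ^ (j + 1)) + X ^ (2 ^ j)) := by
    rw [hlin]
    simp only [Polynomial.map_sum, Polynomial.map_mul, Polynomial.map_C, Polynomial.map_pow,
      Polynomial.map_X, sum_comp', Polynomial.mul_comp, Polynomial.C_comp,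
      Polynomial.pow_comp, Polynomial.X_comp, hs']
    apply Finset.sum_congr rfl
    intro j _
    rw [add_pow_char_pow (p := 2) (n := j), ← pow_mul, pow_succ' 2 j]
  have e2 : ((dicksonPoly n).map s).comp (X ^ 2 + X) =
      dicksonPoly n * (dicksonPoly n).comp (X + C 1) := by
    unfold dicksonPoly
    rw [Polynomial.map_prod, Polynomial.prod_comp, Polynomial.prod_comp, ← Finset.prod_mul_distrib]
    apply Finset.prod_congr rfl
    intro v _
    simp only [Polynomial.map_add, Polynomial.map_X, Polynomial.map_C, Polynomial.add_comp,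
      Polynomial.X_comp, Polynomial.C_comp, hs', totalSq_linForm]
    rw [map_add, map_pow, map_one]
    have h2 : ∀ a b : (D n)[X], a ^ 2 + a + (b + b ^ 2) = (a + b) * (a + 1 + b) := by
      intro a b
      have : (a + b) * (a + 1 + b) = a ^ 2 + a + (b + b ^ 2) + (a * b + a * b) := by ring
      rw [this, CharTwo.add_self_eq_zero, add_zero]
    exact h2 _ _
  have e3 : (dicksonPoly n).comp (X + C 1) =
      dicksonPoly n + C (∑ k ∈ range (n + 1), dickson n k) := by
    nth_rewrite 1 [hlin]
    nth_rewrite 1 [hlin]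
    simp only [sum_comp', Polynomial.mul_comp, Polynomial.C_comp,
      Polynomial.pow_comp, Polynomial.X_comp]
    rw [map_sum, ← Finset.sum_add_distrib]
    apply Finset.sum_congr rfl
    intro j _
    rw [add_pow_char_pow (p := 2) (n := j), map_one, one_pow]
    ring
  rw [← e1, e2, e3, mul_add, ← pow_two]
  nth_rewrite 1 [hlin]
  nth_rewrite 1 [hlin]
  rw [CharTwo.sum_sq, Finset.sum_mul, ← Finset.sum_add_distrib]
  apply Finset.sum_congr rfl
  intro j _
  rw [mul_pow, ← pow_mul, map_pow, map_mul, pow_succ 2 j]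
  ring

lemma coeff_shift {n : ℕ} (c : ℕ → D n) (k : ℕ) (hk : k ≤ n) :
    (∑ j ∈ range (n + 1), C (c j) * (X : (D n)[X]) ^ (2 ^ j)).coeff (2 ^ k) = c k := by
  rw [Polynomial.finsetSum_coeff, Finset.sum_eq_single k]
  · simp
  · intro j _ hj
    rw [Polynomial.coeff_C_mul, Polynomial.coeff_X_pow, if_neg, mul_zero]
    intro h
    exact hj (Nat.pow_right_injective (le_refl 2) h).symm
  · intro h
    rw [Finset.mem_range] at h
    omega

lemma coeff_shift' {n : ℕ} (c : ℕ → D n) (k : ℕ) (hk : k ≤ n) :
    (∑ j ∈ range (n + 1), C (c j) * (X : (D n)[X]) ^ (2 ^ (j + 1))).coeff (2 ^ k) =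
      if k = 0 then 0 else c (k - 1) := by
  rw [Polynomial.finsetSum_coeff]
  rcases Nat.eq_zero_or_pos k with rfl | hk0
  · rw [if_pos rfl]
    apply Finset.sum_eq_zero
    intro j _
    rw [Polynomial.coeff_C_mul, Polynomial.coeff_X_pow, if_neg, mul_zero]
    intro h
    have := Nat.pow_right_injective (le_refl 2) h
    omega
  · rw [if_neg (by omega), Finset.sum_eq_single (k - 1)]
    · rw [Nat.sub_add_cancel hk0]
      simp
    · intro j _ hj
      rw [Polynomial.coeff_C_mul, Polynomial.coeff_X_pow, if_neg, mul_zero]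
      intro h
      have := Nat.pow_right_injective (le_refl 2) h
      omega
    · intro h
      rw [Finset.mem_range] at h
      omega

lemma totalSq_rec (n k : ℕ) (hk : k ≤ n) :
    (if k = 0 then 0 else totalSq n (dickson n (k - 1))) + totalSq n (dickson n k) =
      (if k = 0 then 0 else dickson n (k - 1) ^ 2) +
        (∑ j ∈ range (n + 1), dickson n j) * dickson n k := by
  have h := congrArg (fun p => Polynomial.coeff p (2 ^ k)) (key_identity n)
  simp only [mul_add, Finset.sum_add_distrib, Polynomial.coeff_add] at h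
  rw [coeff_shift' _ k hk, coeff_shift _ k hk, coeff_shift' _ k hk, coeff_shift _ k hk] at h
  exact h

end

section

open MvPolynomial

/-- The total square of a Dickson invariant. -/
lemma totalSq_dickson (n k : ℕ) (hk : k ≤ n) :
    totalSq n (dickson n k) = (∑ j ∈ range (n + 1), dickson n j) * (∑ j ∈ range (k + 1), dickson n j) +
      ∑ j ∈ range k, dickson n j ^ 2 := by
  induction k with
  | zero =>
    have := totalSq_rec n 0 (Nat.zero_le _)
    simpa using this
  | succ k ih =>
    have h1 := totalSq_rec n (k + 1) hk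
    rw [if_neg (by omega), if_neg (by omega), Nat.add_sub_cancel, ih (by omega)] at h1
    rw [Finset.sum_range_succ (fun j => dickson n j) (k + 1),
      Finset.sum_range_succ (fun j => dickson n j ^ 2) k]
    have h2 : ∀ a b c d e f : D n, a + b + c = d + e → c = (a + e) + (b + d) := by
      intro a b c d e f h
      have : c = (a + b + c) + (a + b) := by
        have : (a + b + c) + (a + b) = c + ((a + b) + (a + b)) := by ring
        rw [this, CharTwo.add_self_eq_zero, add_zero]
      rw [this, h]
      ring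
    have h3 := h2 _ _ _ _ _ 0 h1
    rw [h3]
    ring

/-- The map from the abstract Dickson algebra. -/
def iota (n : ℕ) : D n →ₐ[ZMod 2] D n := aeval fun j : Fin n => dickson n j

lemma iota_X {n : ℕ} (j : Fin n) : iota n (X j) = dickson n j := by simp [iota]

lemma sum_fin_le {n : ℕ} (j : Fin n) (f : ℕ → D n) :
    ∑ k ∈ univ.filter (fun k : Fin n => k ≤ j), f k = ∑ k ∈ range ((j : ℕ) + 1), f k := by
  rw [Finset.sum_filter]
  simp only [Fin.le_def]
  rw [Fin.sum_univ_eq_sum_range (fun k => if k ≤ (j : ℕ) then f k else 0) n]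
  rw [← Finset.sum_filter]
  apply Finset.sum_congr _ (fun _ _ => rfl)
  ext k
  have := j.2
  simp only [Finset.mem_filter, Finset.mem_range]
  omega

lemma sum_fin_lt {n : ℕ} (j : Fin n) (f : ℕ → D n) :
    ∑ k ∈ univ.filter (fun k : Fin n => k < j), f k = ∑ k ∈ range (j : ℕ), f k := by
  rw [Finset.sum_filter]
  simp only [Fin.lt_def]
  rw [Fin.sum_univ_eq_sum_range (fun k => if k < (j : ℕ) then f k else 0) n]
  rw [← Finset.sum_filter]
  apply Finset.sum_congr _ (fun _ _ => rfl)
  ext k
  have := j.2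
  simp only [Finset.mem_filter, Finset.mem_range]
  omega

lemma iota_sq {n : ℕ} (f : D n) : iota n (sq n f) = totalSq n (iota n f) := by
  have : (iota n).comp (sq n) = (totalSq n).comp (iota n) := by
    apply algHom_ext
    intro j
    rw [AlgHom.comp_apply, AlgHom.comp_apply, iota_X, sq_X, sqGen, totalSq_dickson n j j.2.le]
    rw [map_add, map_mul, map_sum]
    unfold S T
    rw [map_add, map_one, map_sum, map_sum]
    simp only [map_pow, iota_X]
    rw [sum_fin_le j (fun k => dickson n k), sum_fin_lt j (fun k => dickson n k ^ 2),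
      Fin.sum_univ_eq_sum_range (fun k => dickson n k) n, Finset.sum_range_succ _ n,
      (dicksonPoly_lin n).1]
    ring
  exact DFunLike.congr_fun this f

lemma linForm_homog {n : ℕ} (v : Fin n → ZMod 2) : (linForm v).IsHomogeneous 1 := by
  unfold linForm
  apply IsHomogeneous.sum
  intro i _
  rw [smul_eq_C_mul]
  have := (isHomogeneous_C (Fin n) (v i)).mul (isHomogeneous_X (ZMod 2) i)
  rwa [Nat.zero_add] at this

lemma dickson_homog {n j : ℕ} (hj : j ≤ n) : (dickson n j).IsHomogeneous (2 ^ n - 2 ^ j) := by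
  unfold dickson dicksonPoly
  have hcard : (univ : Finset (Fin n → ZMod 2)).card = 2 ^ n := by
    rw [Finset.card_univ, Fintype.card_fun, ZMod.card, Fintype.card_fin]
  rw [Finset.prod_X_add_C_coeff univ linForm
    (by rw [hcard]; exact Nat.pow_le_pow_right (by norm_num) hj), hcard]
  apply IsHomogeneous.sum
  intro t ht
  rw [Finset.mem_powersetCard] at ht
  have := IsHomogeneous.prod t linForm (fun _ => 1) (fun v _ => linForm_homog v)
  rw [Finset.sum_const, smul_eq_mul, mul_one, ht.2] at this
  exact this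

lemma iota_mono_homog {n : ℕ} (b : Fin n → ℕ) : (iota n (mono b)).IsHomogeneous (weight b) := by
  rw [mono_eq_prod, map_prod]
  unfold weight
  apply IsHomogeneous.prod
  intro i _
  rw [map_pow, iota_X, mul_comm]
  exact (dickson_homog i.2.le).pow _

lemma range_iota (n : ℕ) (f : D n) : f ∈ dicksonAlgebra n ↔ ∃ g, iota n g = f := by
  have h : dicksonAlgebra n = (iota n).range := by
    unfold dicksonAlgebra iota
    rw [← Algebra.adjoin_range_eq_range_aeval]
    congr 1
    ext g
    constructor
    · rintro ⟨j, hj, rfl⟩; exact ⟨⟨j, hj⟩, rfl⟩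
    · rintro ⟨j, rfl⟩; exact ⟨j, j.2, rfl⟩
  rw [h, AlgHom.mem_range]

/-! ### The lowest component of the total square -/

lemma hc_mul {n w k : ℕ} {p : D n} (hp : p.IsHomogeneous w) (hk : k ≤ w) (u : D n) :
    homogeneousComponent k (p * u) = if k = w then p * C (coeff 0 u) else 0 := by
  induction u using MvPolynomial.induction_on' with
  | monomial t a =>
    have h1 : (p * monomial t a).IsHomogeneous (w + t.degree) :=
      hp.mul (isHomogeneous_monomial a rfl)
    rw [homogeneousComponent_of_mem h1, coeff_monomial]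
    by_cases ht : t = 0
    · subst ht
      simp
    · have hd : t.degree ≠ 0 := by
        intro h
        exact ht ((Finsupp.degree_eq_zero_iff t).mp h)
      rw [if_neg (by omega), if_neg ht]
      simp
  | add p' q' hp' hq' =>
    rw [mul_add, map_add, hp', hq', coeff_add, map_add]
    split_ifs <;> ring

lemma totalSq_monomial {n : ℕ} (s : Fin n →₀ ℕ) (a : ZMod 2) :
    totalSq n (monomial s a) = monomial s a * ∏ i, (1 + X i) ^ s i := by
  unfold totalSq
  rw [aeval_monomial, Finsupp.prod_fintype _ _ (fun i => pow_zero _), monomial_eq,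
    Finsupp.prod_fintype _ _ (fun i => pow_zero _), mul_assoc, ← Finset.prod_mul_distrib,
    algebraMap_eq]
  congr 1
  apply Finset.prod_congr rfl
  intro i _
  rw [← mul_pow]
  congr 1
  ring

lemma hc_totalSq {n w k : ℕ} {h : D n} (hh : h.IsHomogeneous w) (hk : k ≤ w) :
    homogeneousComponent k (totalSq n h) = if k = w then h else 0 := by
  have key : ∀ s ∈ h.support, homogeneousComponent k (totalSq n (monomial s (coeff s h))) =
      if k = w then monomial s (coeff s h) else 0 := by
    intro s hs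
    have hdeg : s.degree = w := by
      have h1 := hh (mem_support_iff.mp hs)
      rw [Finsupp.degree_eq_weight_one]
      exact h1
    rw [totalSq_monomial, hc_mul (isHomogeneous_monomial _ hdeg) hk]
    have hc : coeff 0 (∏ i, (1 + X i : D n) ^ s i) = 1 := by
      have : constantCoeff (∏ i, (1 + X i : D n) ^ s i) = 1 := by
        rw [map_prod]
        simp
      exact this
    rw [hc, map_one, mul_one]
  conv_lhs => rw [h.as_sum]
  rw [map_sum, map_sum, Finset.sum_congr rfl key]
  split_ifs
  · exact h.as_sum.symm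
  · simp

/-- A generator of `Q_{n,0}^a D_n` gives a functional killing all hits. -/
theorem HasGenerator.ann {m a d : ℕ} (h : HasGenerator (m + 1) (dicksonIdeal (m + 1) a) d) :
    ∃ x : D (m + 1) →ₗ[ZMod 2] ZMod 2, Ann m a d x ∧ ∃ g : D (m + 1), x (X 0 ^ a * g) ≠ 0 := by
  obtain ⟨f, ⟨f', hf', rfl⟩, hhom, hnot⟩ := h
  obtain ⟨g', rfl⟩ := (range_iota _ _).mp hf'
  obtain ⟨φ, hφ, hker⟩ := Submodule.exists_le_ker_of_notMem hnot
  let x : D (m + 1) →ₗ[ZMod 2] ZMod 2 :=
    φ ∘ₗ (homogeneousComponent d) ∘ₗ (iota (m + 1)).toLinearMap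
  have hx : ∀ g, x g = φ (homogeneousComponent d (iota (m + 1) g)) := fun g => rfl
  refine ⟨x, ⟨?_, ?_⟩, g', ?_⟩
  · intro b hb
    rw [hx, homogeneousComponent_of_mem (iota_mono_homog b), if_neg (Ne.symm hb), map_zero]
  · apply ext_ge (A := x ∘ₗ (sq (m + 1)).toLinearMap) (B := x)
    intro b hb
    rw [LinearMap.comp_apply, AlgHom.toLinearMap_apply, hx, hx, iota_sq]
    set h := iota (m + 1) (mono b) with hh
    have hhom' : h.IsHomogeneous (weight b) := iota_mono_homog b
    have hmem : h ∈ dicksonIdeal (m + 1) a := by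
      refine ⟨iota (m + 1) (mono (b - Pi.single 0 a)), (range_iota _ _).mpr ⟨_, rfl⟩, ?_⟩
      rw [hh, mono_of_ge hb, map_mul, map_pow, iota_X]
      rfl
    rcases Nat.lt_or_ge (weight b) d with hlt | hge
    · rw [homogeneousComponent_of_mem hhom', if_neg (by omega), map_zero]
      have : homogeneousComponent d (totalSq (m + 1) h) ∈
          hits (m + 1) (dicksonIdeal (m + 1) a) d := by
        apply Submodule.subset_span
        refine ⟨weight b, d - weight b, by omega, by omega, h, hmem, hhom', ?_⟩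
        unfold Sq
        rw [Nat.add_sub_cancel' hlt.le]
      exact hker this
    · rw [hc_totalSq hhom' hge, homogeneousComponent_of_mem hhom']
  · rw [hx, map_mul, map_pow, iota_X, Fin.val_zero, homogeneousComponent_of_mem hhom, if_pos rfl]
    exact hφ

theorem HasGenerator.exc {m d : ℕ} (h : HasGenerator (m + 1) (dicksonIdeal (m + 1) 1) d) :
    Exc d := by
  obtain ⟨x, hx, hne⟩ := h.ann
  exact ⟨m, x, hx, hne⟩

lemma Ann.exc {m : ℕ} : ∀ {d : ℕ} {x : D (m + 1) →ₗ[ZMod 2] ZMod 2}, Ann m 0 d x →
    (∃ g : D (m + 1), x (X 0 ^ 0 * g) ≠ 0) → 1 ≤ d → ∃ k e, d = 2 ^ k * e ∧ Exc e := by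
  induction m with
  | zero =>
    intro d x hx hne hd
    by_cases h : ∃ g : D 1, x (X 0 ^ (0 + 1) * g) ≠ 0
    · refine ⟨0, d, by simp, 0, x, ⟨hx.deg, fun g => ?_⟩, h⟩
      have := hx.ann (X 0 * g)
      rwa [pow_zero, one_mul, ← pow_one (X 0 : D 1)] at this
    · push Not at h
      have := term_step hx h hne
      omega
  | succ m ih =>
    intro d x hx hne hd
    by_cases h : ∃ g : D (m + 2), x (X 0 ^ (0 + 1) * g) ≠ 0
    · refine ⟨0, d, by simp, m + 1, x, ⟨hx.deg, fun g => ?_⟩, h⟩
      have := hx.ann (X 0 * g)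
      rwa [pow_zero, one_mul, ← pow_one (X 0 : D (m + 2))] at this
    · push Not at h
      obtain ⟨d', hd', hy, hne'⟩ := rstep hx h hne
      obtain ⟨k, e, he, hexc⟩ := ih hy hne' (by omega)
      exact ⟨k + 1, e, by rw [hd', he]; ring, hexc⟩

open Classical in
/-- The main theorem: generators of the Dickson algebras, and of their augmentation ideals, occur in
few degrees only. -/
theorem main_count : ∃ C : ℝ, ∀ N : ℕ,
    (((range (N + 1)).filter (fun d => 1 ≤ d ∧
      ((∃ n, 1 ≤ n ∧ HasGenerator n (dicksonIdeal n 0) d) ∨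
        ∃ k e n, 1 ≤ n ∧ d = 2 ^ k * e ∧ HasGenerator n (dicksonIdeal n 1) e))).card : ℝ) ≤
      C * (N : ℝ) ^ (299 / 300 : ℝ) := by
  obtain ⟨C, hC⟩ := card_exc
  refine ⟨C, fun N => le_trans ?_ (hC N)⟩
  norm_cast
  apply Finset.card_le_card
  intro d hd
  rw [Finset.mem_filter] at hd ⊢
  refine ⟨hd.1, hd.2.1, ?_⟩
  rcases hd.2.2 with ⟨n, hn, hg⟩ | ⟨k, e, n, hn, hde, hg⟩
  · obtain ⟨m, rfl⟩ : ∃ m, n = m + 1 := ⟨n - 1, by omega⟩
    obtain ⟨x, hx, hne⟩ := hg.ann
    exact hx.exc hne hd.2.1
  · obtain ⟨m, rfl⟩ : ∃ m, n = m + 1 := ⟨n - 1, by omega⟩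
    exact ⟨k, e, hde, hg.exc⟩

end

end

end Vale.Agent.P263.H968
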