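import Vale.Agent.P263.H968.Rstep

/-!
The forbidden pattern Z R Z.
-/

namespace Vale.Agent.P263.H968

open MvPolynomial Finset

noncomputable section

variable {m n : ℕ}

open Classical in
/-- halving of exponents, all of them odd. -/
def hatk (m : ℕ) : D (m + 1) →ₗ[ZMod 2] D (m + 1) :=
  lin (fun b => if ∀ i, Odd (b i) then mono (fun i => b i / 2) else 0)

open Classical in
lemma hatk_mono (b : Fin (m + 1) → ℕ) :
    hatk m (mono b) = if ∀ i, Odd (b i) then mono (fun i => b i / 2) else 0 := by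
  rw [hatk, lin_mono]

open Classical in
lemma kap_tau {a c : ℕ} (hac : a + m = 2 * c) (u : D (m + 1)) :
    kap (m + 1) (X 0 ^ a * tau (m + 1) u) = X 0 ^ c * tau (m + 1) (hatk m u) := by
  induction u using mono_induction with
  | h0 => simp
  | ha f g hf hg => rw [map_add, mul_add, map_add, hf, hg, map_add, map_add, mul_add]
  | hm b =>
    rw [X0_pow_tau_mono, kap_mono, hatk_mono]
    by_cases h : ∀ i, Odd (b i)
    · have hr : Rich (Fin.cons a b : Fin (m + 2) → ℕ) := by
        refine ⟨fun i hi => ?_, ?_⟩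
        · obtain ⟨j, rfl⟩ := Fin.exists_succ_eq.mpr hi
          rw [Fin.cons_succ]; exact h j
        · rw [Fin.cons_zero]; exact ⟨c, by omega⟩
      rw [if_pos hr, if_pos h, X0_pow_tau_mono]
      congr 1
      funext i
      refine Fin.cases ?_ (fun j => ?_) i
      · unfold hf
        rw [if_pos rfl, Fin.cons_zero, Fin.cons_zero]
        omega
      · unfold hf
        rw [if_neg (Fin.succ_ne_zero j), Fin.cons_succ, Fin.cons_succ]
    · have hr : ¬ Rich (Fin.cons a b : Fin (m + 2) → ℕ) := by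
        intro hr
        apply h
        intro i
        have := hr.1 i.succ (Fin.succ_ne_zero i)
        rwa [Fin.cons_succ] at this
      rw [if_neg hr, if_neg h, map_zero, mul_zero]

open Classical in
lemma kap_X0_pow {a c : ℕ} (hac : a + m = 2 * c) (u : D (m + 1)) :
    kap m (X 0 ^ a * u) = X 0 ^ c * hatk m u := by
  induction u using mono_induction with
  | h0 => simp
  | ha f g hf hg => rw [mul_add, map_add, hf, hg, map_add, mul_add]
  | hm b =>
    rw [X0_pow_mul_mono, kap_mono, hatk_mono]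
    by_cases h : ∀ i, Odd (b i)
    · have hr : Rich (b + Pi.single 0 a) := by
        refine ⟨fun i hi => ?_, ?_⟩
        · simpa [hi] using h i
        · obtain ⟨k, hk⟩ := h 0
          simp only [Pi.add_apply, Pi.single_eq_same]
          exact ⟨k + c, by omega⟩
      rw [if_pos hr, if_pos h, X0_pow_mul_mono]
      congr 1
      funext i
      by_cases hi : i = 0
      · subst hi
        obtain ⟨k, hk⟩ := h 0
        simp [hf]
        omega
      · simp [hf, hi]
    · have hr : ¬ Rich (b + Pi.single 0 a) := by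
        intro hr
        apply h
        intro i
        by_cases hi : i = 0
        · subst hi
          obtain ⟨k, hk⟩ := hr.2
          simp only [Pi.add_apply, Pi.single_eq_same] at hk
          exact ⟨k - c, by omega⟩
        · simpa [hi] using hr.1 i hi
      rw [if_neg hr, if_neg h, mul_zero]

/-- The linear coefficient in `X_0`. -/
def rho (n : ℕ) (f : D (n + 1)) : D n := sigma n (pderiv 0 f)

lemma rho_mul (f g : D (n + 1)) : rho n (f * g) = rho n f * sigma n g + sigma n f * rho n g := by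
  unfold rho
  rw [pderiv_mul, map_add, map_mul, map_mul]

lemma rho_add (f g : D (n + 1)) : rho n (f + g) = rho n f + rho n g := by
  unfold rho
  rw [map_add, map_add]

lemma split2 (f : D (n + 1)) :
    ∃ q, f = tau n (sigma n f) + X 0 * tau n (rho n f) + X 0 ^ 2 * q := by
  induction f using MvPolynomial.induction_on with
  | C a =>
    refine ⟨0, ?_⟩
    simp [sigma, tau, rho]
  | add p q hp hq =>
    obtain ⟨u, hu⟩ := hp
    obtain ⟨v, hv⟩ := hq
    refine ⟨u + v, ?_⟩
    rw [map_add, map_add, rho_add, map_add]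
    nth_rewrite 1 [hu]
    nth_rewrite 1 [hv]
    ring
  | mul_X p i hp =>
    obtain ⟨u, hu⟩ := hp
    rw [rho_mul]
    revert i
    refine Fin.cases ?_ (fun j => ?_)
    · have h1 : rho n (X 0 : D (n + 1)) = 1 := by
        unfold rho
        rw [pderiv_X_self, map_one]
      refine ⟨tau n (rho n p) + X 0 * u, ?_⟩
      rw [map_mul, sigma_X_zero, h1]
      simp only [mul_zero, map_zero, zero_add, mul_one]
      nth_rewrite 1 [hu]
      ring
    · have h1 : rho n (X j.succ : D (n + 1)) = 0 := by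
        unfold rho
        rw [pderiv_X_of_ne (Fin.succ_ne_zero j), map_zero]
      refine ⟨u * X j.succ, ?_⟩
      rw [map_mul, h1, sigma_X_succ, mul_zero, add_zero, map_mul, map_mul, tau_X]
      nth_rewrite 1 [hu]
      ring

/-- The compatibility between the linear coefficient and the Euler derivation. -/
def Comp (m : ℕ) (f : D (m + 2)) : Prop := X 0 * rho (m + 1) f = E m 0 (sigma (m + 1) f)

lemma Comp.mul {f g : D (m + 2)} (hf : Comp m f) (hg : Comp m g) : Comp m (f * g) := by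
  unfold Comp at *
  rw [rho_mul, map_mul, Derivation.leibniz, ← hf, ← hg, smul_eq_mul, smul_eq_mul]
  ring

lemma Comp.add {f g : D (m + 2)} (hf : Comp m f) (hg : Comp m g) : Comp m (f + g) := by
  unfold Comp at *
  rw [rho_add, map_add, map_add, ← hf, ← hg]
  ring

lemma Comp.const (a : ZMod 2) : Comp m (C a) := by
  unfold Comp rho
  rw [pderiv_C, map_zero, mul_zero]
  have : sigma (m + 1) (C a) = C a := by simp [sigma]
  rw [this, ← algebraMap_eq, Derivation.map_algebraMap]

lemma Comp.S : Comp m (S (m + 2)) := by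
  unfold Comp
  have h1 : rho (m + 1) (H968.S (m + 2)) = 1 := by
    have : rho (m + 1) (H968.S (m + 2)) =
        sigma (m + 1) (pderiv 0 (X 0 + tau (m + 1) (H968.S (m + 1)))) := by
      unfold rho; rw [S_succ]
    rw [this]
    have h2 : pderiv (0 : Fin (m + 2)) (tau (m + 1) (H968.S (m + 1))) = 0 := by
      unfold H968.S
      rw [map_add, map_sum, map_one, map_add, map_sum]
      simp only [tau_X]
      rw [Finset.sum_eq_zero (fun i _ => pderiv_X_of_ne (Fin.succ_ne_zero i))]
      simp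
    rw [map_add, h2, pderiv_X_self, add_zero, map_one]
  have hE : E m 0 = Ed m 0 := by unfold E; rw [if_pos (Nat.zero_le _)]
  rw [h1, sigma_S, hE, Ed_S 0 (Nat.zero_le _), mul_one]

lemma pderiv_tau (f : D n) : pderiv (0 : Fin (n + 1)) (tau n f) = 0 := by
  induction f using MvPolynomial.induction_on with
  | C a => simp [tau]
  | add p q hp hq => rw [map_add, map_add, hp, hq, add_zero]
  | mul_X p i hp =>
    rw [map_mul, pderiv_mul, hp, tau_X, pderiv_X_of_ne (Fin.succ_ne_zero i)]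
    ring

lemma Comp.sq_tau (k : D (m + 1)) : Comp m (sq (m + 2) (tau (m + 1) k)) := by
  induction k using MvPolynomial.induction_on with
  | C a =>
    have : sq (m + 2) (tau (m + 1) (C a)) = C a := by simp [tau, sq]
    rw [this]
    exact Comp.const a
  | add p q hp hq => rw [map_add, map_add]; exact hp.add hq
  | mul_X p j hp =>
    rw [map_mul, map_mul]
    apply hp.mul
    have hE : E m 0 = Ed m 0 := by unfold E; rw [if_pos (Nat.zero_le _)]
    unfold Comp
    rw [sigma_sq, sigma_tau, sq_X, sqGen, tau_X, sq_X_succ, hE, map_add, der_sum_sq,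
      Derivation.leibniz, Ed_T 0 j (Nat.zero_le _), if_pos (Nat.zero_le _),
      Ed_S 0 (Nat.zero_le _)]
    unfold rho
    simp only [map_add (pderiv (0 : Fin (m + 2))), pderiv_mul, pderiv_X_self, pderiv_tau, der_sq]
    simp only [add_zero, one_mul, mul_one, map_add, sigma_X_zero, sigma_tau, zero_add, smul_eq_mul]
    ring

lemma Comp.pow {f : D (m + 2)} (hf : Comp m f) (c : ℕ) : Comp m (f ^ c) := by
  induction c with
  | zero => rw [pow_zero, ← C_1]; exact Comp.const 1
  | succ c ih => rw [pow_succ]; exact ih.mul hf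

lemma E0_X0_pow (c : ℕ) (f : D (m + 1)) :
    E m 0 (X 0 ^ c * f) = (c : D (m + 1)) * (X 0 ^ c * f) + X 0 ^ c * E m 0 f := by
  have h0 : E m 0 (X 0) = X 0 := by rw [E_X]; simp
  induction c with
  | zero => simp
  | succ c ih =>
    have : (X 0 : D (m + 1)) ^ (c + 1) * f = X 0 * (X 0 ^ c * f) := by ring
    rw [this, Derivation.leibniz, ih, h0, smul_eq_mul, smul_eq_mul]
    push_cast
    ring

open Classical in
lemma kap_E0 (f : D (m + 1)) : kap m (E m 0 f) = ((m + 1 : ℕ) : ZMod 2) • kap m f := by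
  induction f using mono_induction with
  | h0 => simp
  | ha f g hf hg => rw [map_add, map_add, map_add, hf, hg, smul_add]
  | hm b =>
    rw [E0_mono, map_smul, kap_mono]
    split_ifs with h
    · congr 1
      have h1 : ((b 0 + m : ℕ) : ZMod 2) = 1 := ZMod.natCast_eq_one_iff_odd.mpr h.2
      have h2 : ∀ u v : ZMod 2, u + v = 1 → u = v + 1 := by decide
      push_cast at h1 ⊢
      exact h2 _ _ h1
    · rw [smul_zero, smul_zero]

lemma En_mem (b : Fin (m + 1) → ℕ) : En m (mono b) ∈ Hi (m + 1) (weight b) := by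
  rw [En_apply]
  apply Submodule.sum_mem
  intro i _
  have := Hi_mul (mem_Hi_zero ((X i : D (m + 1)) ^ 2)) (E_mono_mem ((i : ℕ) + 1) b)
  rwa [Nat.zero_add] at this

section

variable {a c d2 : ℕ} {x x' : D (m + 2) →ₗ[ZMod 2] ZMod 2}

/-- The twisted annihilation relation for the rank `m + 1` part of `x`. -/
lemma twisted (hac : a + m = 2 * c)
    (hann : ∀ g, x (sq (m + 2) (X 0 ^ a * g)) = x (X 0 ^ a * g))
    (hk : ∀ g, x (X 0 ^ (a + 1) * g) = x' (kap (m + 1) (X 0 ^ (a + 1) * g)))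
    (h0 : ∀ g, x' (X 0 ^ (c + 2) * g) = 0)
    (hy' : Ann m (c + 1) d2 (desc (c + 1) x'))
    (hpar : (d2 : ZMod 2) + (c : ZMod 2) = 1) (h : D (m + 1)) :
    desc a x (sq (m + 1) (X 0 ^ a * h)) = desc a x (X 0 ^ a * h) +
      desc (c + 1) x' (sq (m + 1) (kap m (X 0 ^ a * h))) := by
  set f1 : D (m + 2) := S (m + 2) ^ a * sq (m + 2) (tau (m + 1) h) with hf1
  set k : D (m + 1) := hatk m h with hk'
  set f2 : D (m + 2) := S (m + 2) ^ c * sq (m + 2) (tau (m + 1) k) with hf2
  have s1 : sigma (m + 1) f1 = S (m + 1) ^ a * sq (m + 1) h := by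
    rw [hf1, map_mul, map_pow, sigma_S, sigma_sq, sigma_tau]
  have s2 : sigma (m + 1) f2 = S (m + 1) ^ c * sq (m + 1) k := by
    rw [hf2, map_mul, map_pow, sigma_S, sigma_sq, sigma_tau]
  have hF : sq (m + 2) (X 0 ^ a * tau (m + 1) h) = X 0 ^ a * f1 := sq_X0_pow_mul _ _
  have hG : sq (m + 2) (X 0 ^ c * tau (m + 1) k) = X 0 ^ c * f2 := sq_X0_pow_mul _ _
  have hhat : hatk m (sigma (m + 1) f1) = sigma (m + 1) f2 := by
    have e : (X 0 : D (m + 1)) ^ c * hatk m (sigma (m + 1) f1) = X 0 ^ c * sigma (m + 1) f2 := by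
      rw [← kap_X0_pow hac, s1, ← sq_X0_pow_mul, kap_sq_comm, kap_X0_pow hac, sq_X0_pow_mul, s2]
    exact mul_left_cancel₀ (pow_ne_zero _ (X_ne_zero 0)) e
  obtain ⟨q, hq⟩ := split_X0 f1
  obtain ⟨q2, hq2⟩ := split2 f2
  have e1 : (X 0 : D (m + 2)) ^ a * f1 = X 0 ^ a * tau (m + 1) (sigma (m + 1) f1) +
      X 0 ^ (a + 1) * q := by
    nth_rewrite 1 [hq]; ring
  have e2 : kap (m + 1) (X 0 ^ (a + 1) * q) = X 0 ^ (c + 1) * tau (m + 1) (rho (m + 1) f2) +
      X 0 ^ (c + 2) * q2 := by
    have t1 : kap (m + 1) (X 0 ^ a * f1) = X 0 ^ c * f2 := by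
      rw [← hF, kap_sq_comm, kap_tau hac, hG]
    have t2 : kap (m + 1) (X 0 ^ a * tau (m + 1) (sigma (m + 1) f1)) =
        X 0 ^ c * tau (m + 1) (sigma (m + 1) f2) := by
      rw [kap_tau hac, hhat]
    have t3 := congrArg (kap (m + 1)) e1
    rw [map_add, t1, t2] at t3
    have t4 : kap (m + 1) (X 0 ^ (a + 1) * q) =
        X 0 ^ c * f2 - X 0 ^ c * tau (m + 1) (sigma (m + 1) f2) := by
      rw [t3]; ring
    rw [t4]
    nth_rewrite 1 [hq2]
    ring
  have e3 : x (X 0 ^ a * f1) = desc a x (sq (m + 1) (X 0 ^ a * h)) +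
      desc (c + 1) x' (X 0 ^ (c + 1) * rho (m + 1) f2) := by
    rw [e1, map_add, hk, e2, map_add, h0, add_zero, sq_X0_pow_mul, desc_apply, desc_apply, s1]
  have e4 : x (X 0 ^ a * f1) = desc a x (X 0 ^ a * h) := by
    rw [← hF, hann, desc_apply]
  have hcomp : X 0 * rho (m + 1) f2 = E m 0 (sigma (m + 1) f2) :=
    (Comp.S.pow c).mul (Comp.sq_tau k)
  have e5 : (X 0 : D (m + 1)) ^ (c + 1) * rho (m + 1) f2 =
      E m 0 (X 0 ^ c * sigma (m + 1) f2) + (c : D (m + 1)) * (X 0 ^ c * sigma (m + 1) f2) := by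
    rw [E0_X0_pow, ← hcomp]
    have : (c : D (m + 1)) * (X 0 ^ c * sigma (m + 1) f2) +
        X 0 ^ c * (X 0 * rho (m + 1) f2) + (c : D (m + 1)) * (X 0 ^ c * sigma (m + 1) f2) =
        X 0 ^ c * (X 0 * rho (m + 1) f2) + ((c : D (m + 1)) * (X 0 ^ c * sigma (m + 1) f2) +
          (c : D (m + 1)) * (X 0 ^ c * sigma (m + 1) f2)) := by ring
    rw [this, CharTwo.add_self_eq_zero]
    ring
  have e6 : X 0 ^ c * sigma (m + 1) f2 = sq (m + 1) (kap m (X 0 ^ a * h)) := by
    rw [kap_X0_pow hac, sq_X0_pow_mul, s2]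
  have e7 : desc (c + 1) x' (X 0 ^ (c + 1) * rho (m + 1) f2) =
      desc (c + 1) x' (sq (m + 1) (kap m (X 0 ^ a * h))) := by
    rw [e5, e6, map_add, hy'.E0]
    have : (c : D (m + 1)) * sq (m + 1) (kap m (X 0 ^ a * h)) =
        (c : ZMod 2) • sq (m + 1) (kap m (X 0 ^ a * h)) := by
      rw [Nat.cast_smul_eq_nsmul, nsmul_eq_mul]
    rw [this, map_smul, smul_eq_mul, ← add_mul, hpar, one_mul]
  rw [e4, e7] at e3
  rw [e3, add_assoc, CharTwo.add_self_eq_zero, add_zero]

end

/-- The pattern Z R Z is impossible. -/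
theorem forbid {a d d1 d2 : ℕ} {x x' : D (m + 2) →ₗ[ZMod 2] ZMod 2}
    (hx : Ann (m + 1) a d x) {c : ℕ} (hac : a + m = 2 * c)
    (hd : d = 2 * d1 + (m + 2))
    (hk : ∀ g, x (X 0 ^ (a + 1) * g) = x' (kap (m + 1) (X 0 ^ (a + 1) * g)))
    (h0 : ∀ g, x' (X 0 ^ (c + 2) * g) = 0)
    (hd1 : d1 = 2 * d2 + (c + 1))
    (hy' : Ann m (c + 1) d2 (desc (c + 1) x'))
    (hcm : (c + m) % 2 = 0) (g : D (m + 1)) :
    desc (c + 1) x' (X 0 ^ (c + 2) * g) = 0 := by
  by_contra hne
  obtain ⟨d3, -, hd3, -, -⟩ := zstep hy' ⟨g, hne⟩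
  have hpar : (d2 : ZMod 2) + (c : ZMod 2) = 1 := by
    rw [← Nat.cast_add]
    exact ZMod.natCast_eq_one_iff_odd.mpr ⟨d3 + (c + m) / 2, by omega⟩
  have hT := twisted hac hx.ann hk h0 hy' hpar
  set y := desc a x with hy
  set y' := desc (c + 1) x' with hy'def
  obtain ⟨e, he⟩ : ∃ e, e = 2 * d2 + (m + 2) := ⟨_, rfl⟩
  have ydeg : ∀ b, weight b ≠ e → y (mono b) = 0 := by
    intro b hb
    by_contra h
    have := desc_deg hx b h
    omega
  clear_value y y'
  have yE0 : ∀ f, y (E m 0 f) = (e : ZMod 2) * y f := by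
    intro f
    induction f using mono_induction with
    | h0 => simp
    | ha f g hf hg => rw [map_add, map_add, map_add, hf, hg]; ring
    | hm b =>
      rw [E0_mono, map_smul, smul_eq_mul]
      by_cases h : weight b = e
      · rw [← h, weight_cast]
      · rw [ydeg b h, mul_zero, mul_zero]
  have yHi : ∀ w, e < w → ∀ f ∈ Hi (m + 1) w, y f = 0 :=
    fun w hw f hf => zero_on_Hi (fun b hb => ydeg b (by omega)) hf
  have hme : ((m + 1 : ℕ) : ZMod 2) + (e : ZMod 2) = 1 := by
    rw [← Nat.cast_add]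
    exact ZMod.natCast_eq_one_iff_odd.mpr ⟨m + 1 + d2, by omega⟩
  -- step A
  have stepA : ∀ g, y (E m 1 (sq (m + 1) (X 0 ^ a * g))) =
      y' (sq (m + 1) (kap m (X 0 ^ a * g))) := by
    intro g
    rw [star 0 (Nat.zero_le _), map_add, yE0]
    obtain ⟨g', hg'⟩ := E_stable a 0 g
    rw [hg', hT, ← hg', yE0, hT, kap_E0, map_smul, map_smul, smul_eq_mul]
    have : ∀ u v w t : ZMod 2, w + u = 1 → u * v + w * t + u * (v + t) = t := by decide
    exact this _ _ _ _ hme
  -- step B
  have stepB : ∀ g, y (E m 1 (X 0 ^ a * g)) = y' (kap m (X 0 ^ a * g)) := by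
    intro g
    have hz := unip' a e (y ∘ₗ (E m 1).toLinearMap - y' ∘ₗ kap m) ?_ ?_ g
    · exact sub_eq_zero.mp hz
    · intro b hb
      have h1 : y (E m 1 (mono b)) = 0 := yHi _ hb _ (E_mono_mem 1 b)
      have h2 : y' (kap m (mono b)) = 0 := by
        classical
        rw [kap_mono]
        split_ifs with hr
        · apply hy'.deg
          have hm : m ≤ 2 * hf b 0 + 1 := by
            obtain ⟨k, hk⟩ := hr.2
            unfold hf
            rw [if_pos rfl]
            omega
          have := weight_liftE hm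
          rw [liftE_hf hr] at this
          omega
        · exact map_zero _
      show y (E m 1 (mono b)) - y' (kap m (mono b)) = 0
      rw [h1, h2, sub_zero]
    · intro g
      show y (E m 1 (sq (m + 1) (X 0 ^ a * g))) - y' (kap m (sq (m + 1) (X 0 ^ a * g))) = 0
      rw [stepA, kap_sq_comm, sub_self]
  have hkM : ∀ g, kap m (X 0 ^ (a + 2) * g) = X 0 ^ (c + 1) * hatk m g := by
    intro g
    have : (X 0 : D (m + 1)) ^ (a + 2) * g = X 0 ^ 2 * (X 0 ^ a * g) := by ring
    rw [this, kap_sq_mul, kap_X0_pow hac]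
    ring
  have hM : ∀ g : D (m + 1), (X 0 : D (m + 1)) ^ (a + 2) * g = X 0 ^ a * (X 0 ^ 2 * g) := by
    intro g; ring
  have ysq : ∀ k, 1 ≤ k → k ≤ m + 1 → ∀ g, y (sq (m + 1) (E m k (X 0 ^ (a + 2) * g))) =
      y (E m k (X 0 ^ (a + 2) * g)) := by
    intro k hk1 hk2 g
    obtain ⟨g', hg'⟩ := E_stable (a + 2) k g
    have h1 : kap m (X 0 ^ (a + 2) * g') = 0 := by rw [← hg', kap_E hk1 hk2]
    rw [hg', hM, hT, ← hM, h1, map_zero, map_zero, add_zero]
  -- step C
  have stepC : ∀ k, k ≤ m → (∀ g, y (E m (k + 1) (X 0 ^ (a + 2) * g)) +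
      y (E m (k + 1) (sq (m + 1) (X 0 ^ (a + 2) * g))) = 0) ∧
      (1 ≤ k → ∀ g, y (E m (k + 1) (X 0 ^ (a + 2) * g)) = 0) := by
    intro k
    induction k with
    | zero =>
      intro _
      refine ⟨fun g => ?_, fun h => by omega⟩
      rw [Nat.zero_add, hM, stepB, stepA, ← hM, hkM, hy'.ann, CharTwo.add_self_eq_zero]
    | succ k ih =>
      intro hk
      obtain ⟨h1, -⟩ := ih (by omega)
      have h2 : ∀ g, y (E m (k + 1 + 1) (sq (m + 1) (X 0 ^ (a + 2) * g))) = 0 := by
        intro g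
        rw [star (k + 1) hk, map_add, ysq (k + 1) (by omega) (by omega)]
        exact h1 g
      have h3 : ∀ g, y (E m (k + 1 + 1) (X 0 ^ (a + 2) * g)) = 0 := by
        intro g
        have hz : ∀ b, e < weight b → y (E m (k + 1 + 1) (mono b)) = 0 :=
          fun b hb => yHi (weight b) hb (E m (k + 1 + 1) (mono b)) (E_mono_mem (k + 1 + 1) b)
        exact unip' (a + 2) e (y ∘ₗ (E m (k + 1 + 1)).toLinearMap) hz h2 g
      exact ⟨fun g => by rw [h2, h3, add_zero], fun _ => h3⟩
  have hEn : ∀ g, y (En m (X 0 ^ (a + 2) * g)) = 0 := by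
    intro g
    refine unip' (a + 2) e (y ∘ₗ (En m).toLinearMap) (fun b hb => yHi _ hb _ (En_mem b)) ?_ g
    intro g
    show y (En m (sq (m + 1) (X 0 ^ (a + 2) * g))) = 0
    rw [star_top, map_add, ysq (m + 1) (by omega) le_rfl]
    exact (stepC m le_rfl).1 g
  -- step D
  have stepD : ∀ g, y' (X 0 * kap m (X 0 ^ (a + 2) * g)) = 0 := by
    intro g
    have h1 := hEn g
    rw [En_apply, map_sum, Fin.sum_univ_succ] at h1
    have h2 : ∀ i : Fin (m + 1), (X i : D (m + 1)) ^ 2 * E m ((i : ℕ) + 1) (X 0 ^ (a + 2) * g) =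
        E m ((i : ℕ) + 1) (X 0 ^ (a + 2) * (X i ^ 2 * g)) := by
      intro i
      have : (X 0 : D (m + 1)) ^ (a + 2) * (X i ^ 2 * g) = X i ^ 2 * (X 0 ^ (a + 2) * g) := by ring
      rw [this, Derivation.leibniz (E m ((i : ℕ) + 1)) (X i ^ 2), der_sq, smul_zero, add_zero,
        smul_eq_mul]
    rw [h2] at h1
    have h3 : ∀ i : Fin m, y ((X i.succ : D (m + 1)) ^ 2 *
        E m ((i.succ : ℕ) + 1) (X 0 ^ (a + 2) * g)) = 0 := by
      intro i
      rw [h2]
      have hi := i.2
      exact (stepC ((i.succ : Fin (m + 1)) : ℕ) (by rw [Fin.val_succ]; omega)).2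
        (by rw [Fin.val_succ]; omega) _
    rw [Finset.sum_eq_zero (fun i _ => h3 i), add_zero, Fin.val_zero, Nat.zero_add, hM, stepB] at h1
    have h4 : (X 0 : D (m + 1)) ^ a * (X 0 ^ 2 * (X 0 ^ 2 * g)) = X 0 ^ 2 * (X 0 ^ (a + 2) * g) := by
      ring
    rw [h4, kap_sq_mul] at h1
    exact h1
  -- step E
  apply hne
  refine ext_ge (a := c + 2) (A := y') (B := 0) ?_ g
  · intro b hb
    let b' : Fin (m + 1) → ℕ := b - Pi.single 0 (c + 2)
    have hb' : mono b = X 0 ^ (c + 2) * mono b' := mono_of_ge hb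
    have hh : hatk m (mono (fun i => 2 * b' i + 1)) = mono b' := by
      classical
      rw [hatk_mono, if_pos (fun i => ⟨b' i, rfl⟩)]
      congr 1
      funext i
      omega
    have h5 := stepD (mono (fun i => 2 * b' i + 1))
    rw [hkM, hh] at h5
    have h6 : mono b = X 0 * (X 0 ^ (c + 1) * mono b') := by rw [hb']; ring
    rw [h6, LinearMap.zero_apply]
    exact h5

end

end Vale.Agent.P263.H968
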