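import Vale.Agent.P263.H968.Mono

/-!
The halving operator `kap` on the abstract Dickson algebra and its commutation with the total
Steenrod square.
-/

namespace Vale.Agent.P263.H968

open MvPolynomial Finset

noncomputable section

variable {m n : ℕ}

lemma E_X_zero {k : ℕ} (hk : 1 ≤ k) : E m k (X 0) = if k ≤ m then 0 else X 0 * X 0 := by
  rw [E_X]
  have : ((0 : Fin (m + 1)) : ℕ) ≠ k := by simp; omega
  rw [if_neg this]

lemma E_comm_X {k l : ℕ} (hk : 1 ≤ k) (hl : 1 ≤ l) (i : Fin (m + 1)) :
    E m k (E m l (X i)) = E m l (E m k (X i)) := by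
  rw [E_X l i, E_X k i]
  split_ifs with h1 h2 h3 h4 h5 h6 h7
  all_goals try simp only [map_zero, E_X_zero hk, E_X_zero hl, Derivation.leibniz, smul_eq_mul,
    E_X k i, E_X l i]
  all_goals try (simp [*])

lemma E_sq_X {k : ℕ} (hk : 1 ≤ k) (i : Fin (m + 1)) :
    E m k (E m k (X i)) = 0 := by
  rw [E_X k i]
  split_ifs with h1 h2
  · rw [E_X_zero hk, if_pos h1]
  · rw [map_zero]
  · rw [Derivation.leibniz, E_X_zero hk, if_neg h1, E_X, if_neg h1, smul_eq_mul, smul_eq_mul]
    have : X 0 * (X 0 * X i) + X i * (X 0 * X 0) = X 0 * X 0 * X i + (X 0 * X 0 * X i : D (m + 1)) := by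
      ring
    rw [this, CharTwo.add_self_eq_zero]

lemma E_comm {k l : ℕ} (hk : 1 ≤ k) (hl : 1 ≤ l) (f : D (m + 1)) :
    E m k (E m l f) = E m l (E m k f) := by
  induction f using MvPolynomial.induction_on with
  | C a => rw [← algebraMap_eq, Derivation.map_algebraMap, Derivation.map_algebraMap, map_zero, map_zero]
  | add p q hp hq => simp only [map_add, hp, hq]
  | mul_X p i hp =>
    simp only [Derivation.leibniz, smul_eq_mul, map_add, hp, E_comm_X hk hl i]
    ring

lemma E_sq_zero {k : ℕ} (hk : 1 ≤ k) (f : D (m + 1)) : E m k (E m k f) = 0 := by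
  induction f using MvPolynomial.induction_on with
  | C a => rw [← algebraMap_eq, Derivation.map_algebraMap, map_zero]
  | add p q hp hq => simp only [map_add, hp, hq, add_zero]
  | mul_X p i hp =>
    simp only [Derivation.leibniz, smul_eq_mul, map_add, hp, E_sq_X hk i, mul_zero, zero_add]
    have : (E m k) (X i) * (E m k) p + (E m k) p * (E m k) (X i) =
      (E m k) (X i) * (E m k) p + (E m k) (X i) * (E m k) p := by ring
    rw [this, CharTwo.add_self_eq_zero]

/-- `E_k ... E_1`. -/
def Pop (m : ℕ) : ℕ → D (m + 1) → D (m + 1)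
  | 0, f => f
  | k + 1, f => E m (k + 1) (Pop m k f)

/-- `(E_{k+1}+E_k) ... (E_2+E_1)`. -/
def Wop (m : ℕ) : ℕ → D (m + 1) → D (m + 1)
  | 0, f => f
  | k + 1, f => E m (k + 2) (Wop m k f) + E m (k + 1) (Wop m k f)

lemma Pop_comm (k : ℕ) {i : ℕ} (hi : 1 ≤ i) (f : D (m + 1)) :
    Pop m k (E m i f) = E m i (Pop m k f) := by
  induction k with
  | zero => rfl
  | succ k ih => rw [Pop, Pop, ih, E_comm (by omega) hi]

lemma E_Pop (k : ℕ) {i : ℕ} (hi : 1 ≤ i) (hk : i ≤ k) (f : D (m + 1)) :
    E m i (Pop m k f) = 0 := by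
  induction k with
  | zero => omega
  | succ k ih =>
    rw [Pop]
    rcases Nat.lt_or_ge k i with h | h
    · have : i = k + 1 := by omega
      subst this
      exact E_sq_zero hi _
    · rw [E_comm hi (by omega), ih h, map_zero]

lemma Pop_E (k : ℕ) {i : ℕ} (hi : 1 ≤ i) (hk : i ≤ k) (f : D (m + 1)) :
    Pop m k (E m i f) = 0 := by rw [Pop_comm k hi, E_Pop k hi hk]

lemma E_Wop (k : ℕ) {i : ℕ} (hk : i ≤ k) (f : D (m + 1)) :
    E m (i + 1) (Wop m k f) = Pop m (k + 1) f := by
  induction k generalizing i with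
  | zero =>
    have : i = 0 := by omega
    subst this
    rfl
  | succ k ih =>
    rw [Wop, map_add]
    rcases Nat.lt_or_ge k i with h | h
    · have : i = k + 1 := by omega
      subst this
      rw [E_sq_zero (by omega), zero_add, ih le_rfl]
      rfl
    · have h1 := E_comm (m := m) (k := i + 1) (l := k + 2) (by omega) (by omega) (Wop m k f)
      have h2 := E_comm (m := m) (k := i + 1) (l := k + 1) (by omega) (by omega) (Wop m k f)
      rw [h1, h2, ih h, E_Pop (k + 1) (by omega) le_rfl, add_zero]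
      rfl

lemma sq_Pop (k : ℕ) (hk : k ≤ m) (f : D (m + 1)) :
    sq (m + 1) (Pop m k f) = Wop m k (sq (m + 1) f) := by
  induction k with
  | zero => rfl
  | succ k ih =>
    rw [Pop, Wop, ← ih (by omega)]
    have := star (m := m) (k + 1) hk (Pop m k f)
    have h2 : ∀ a b c : D (m + 1), a = b + c → b = a + c := by
      intro a b c h
      rw [h, add_assoc, CharTwo.add_self_eq_zero, add_zero]
    exact h2 _ _ _ this

lemma sq_Pop_top (f : D (m + 1)) :
    sq (m + 1) (Pop m (m + 1) f) = S (m + 1) ^ 2 * Pop m (m + 1) (sq (m + 1) f) := by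
  have h2 : ∀ a b c : D (m + 1), a = b + c → b = a + c := by
    intro a b c h
    rw [h, add_assoc, CharTwo.add_self_eq_zero, add_zero]
  have h := h2 _ _ _ (star_top (Pop m m f))
  rw [sq_Pop m le_rfl, En_apply, E_Wop m le_rfl] at h
  rw [Pop, h, S_sq]
  have : ∀ i : Fin (m + 1), E m ((i : ℕ) + 1) (Wop m m (sq (m + 1) f)) = Pop m (m + 1) (sq (m + 1) f) :=
    fun i => E_Wop m (by have := i.2; omega) _
  simp only [this]
  rw [← Finset.sum_mul]
  ring

lemma Pop_sq_mul (k : ℕ) (g f : D (m + 1)) : Pop m k (g ^ 2 * f) = g ^ 2 * Pop m k f := by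
  induction k with
  | zero => rfl
  | succ k ih => rw [Pop, ih, Derivation.leibniz, der_sq, smul_zero, add_zero, smul_eq_mul, Pop]

lemma Pop_add (k : ℕ) (f g : D (m + 1)) : Pop m k (f + g) = Pop m k f + Pop m k g := by
  induction k with
  | zero => rfl
  | succ k ih => rw [Pop, ih, map_add, Pop, Pop]

lemma Pop_zero (k : ℕ) : Pop m k (0 : D (m + 1)) = 0 := by
  induction k with
  | zero => rfl
  | succ k ih => rw [Pop, ih, map_zero]

lemma Ed_eq (k : ℕ) (hk : k ≤ m) (f : D (m + 1)) :
    Ed m k f = X 0 * pderiv (⟨k, by omega⟩ : Fin (m + 1)) f := by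
  have : Ed m k = (X 0 : D (m + 1)) • pderiv (⟨k, by omega⟩ : Fin (m + 1)) := by
    apply derivation_ext
    intro i
    rw [Ed_X, Derivation.smul_apply, pderiv_X, smul_eq_mul, Pi.single_apply]
    by_cases h : (i : ℕ) = k
    · rw [if_pos h, if_pos (by rw [Fin.ext_iff]; exact h), mul_one]
    · rw [if_neg h, if_neg (by rw [Fin.ext_iff]; exact h), mul_zero]
  rw [this]; rfl

lemma Ed_mono (k : ℕ) (hk1 : 1 ≤ k) (hk : k ≤ m) (b : Fin (m + 1) → ℕ) :
    Ed m k (mono b) = if Odd (b ⟨k, by omega⟩) then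
      mono (fun i => if i = 0 then b 0 + 1 else if (i : ℕ) = k then b i - 1 else b i) else 0 := by
  rw [Ed_eq k hk]
  unfold mono
  rw [pderiv_monomial, one_mul]
  have hb : (Finsupp.equivFunOnFinite.symm b) (⟨k, by omega⟩ : Fin (m + 1)) = b ⟨k, by omega⟩ := rfl
  rw [hb]
  split_ifs with h
  · rw [ZMod.natCast_eq_one_iff_odd.mpr h, X, monomial_mul, one_mul]
    refine congrArg (fun s => monomial s (1 : ZMod 2)) ?_
    ext i
    simp only [Finsupp.add_apply, Finsupp.tsub_apply, Finsupp.equivFunOnFinite_symm_apply_apply]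
    rw [Finsupp.single_apply, Finsupp.single_apply]
    by_cases hi : i = 0
    · subst hi
      have h1 : (⟨k, by omega⟩ : Fin (m + 1)) ≠ 0 := by
        intro h; rw [Fin.ext_iff] at h; simp at h; omega
      rw [if_pos rfl, if_neg h1, if_pos rfl]; omega
    · rw [if_neg (Ne.symm hi), if_neg hi]
      by_cases h2 : (i : ℕ) = k
      · rw [if_pos (by rw [Fin.ext_iff]; exact h2.symm), if_pos h2]; omega
      · rw [if_neg (by rw [Fin.ext_iff]; exact fun h => h2 h.symm), if_neg h2]; omega
  · rw [Nat.not_odd_iff_even] at h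
    rw [ZMod.natCast_eq_zero_iff_even.mpr h, map_zero, mul_zero]

lemma Eu_mono (b : Fin (m + 1) → ℕ) :
    Eu m (mono b) = if Odd (∑ i, b i) then mono (b + Pi.single 0 1) else 0 := by
  have h1 : Eu m (mono b) = ((∑ i, b i : ℕ) : D (m + 1)) * (X 0 * mono b) := by
    rw [mono_eq_prod]
    have : ∀ s : Finset (Fin (m + 1)), Eu m (∏ i ∈ s, (X i : D (m + 1)) ^ b i) =
        ((∑ i ∈ s, b i : ℕ) : D (m + 1)) * (X 0 * ∏ i ∈ s, X i ^ b i) := by
      intro s
      induction s using Finset.induction_on with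
      | empty => simp
      | insert a s ha ih =>
        rw [Finset.prod_insert ha, Finset.sum_insert ha, Derivation.leibniz, ih,
          Derivation.leibniz_pow, Eu_X, smul_eq_mul, smul_eq_mul, smul_eq_mul]
        push_cast
        rcases Nat.eq_zero_or_pos (b a) with h | h
        · rw [h]; simp
        · have e : (X a : D (m + 1)) ^ b a = X a ^ (b a - 1) * X a := by
            rw [← pow_succ]; congr 1; omega
          rw [e, nsmul_eq_mul]
          ring
    exact this _
  rw [h1]
  have h2 : mono (b + Pi.single 0 1) = X 0 * mono b := by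
    rw [← mono_mul, X_eq_mono, mul_comm]
  rw [h2]
  split_ifs with h
  · obtain ⟨k, hk⟩ := h
    rw [hk]
    push_cast
    have h2 : (2 : D (m + 1)) = 0 := CharTwo.two_eq_zero
    rw [h2, zero_mul, zero_add, one_mul]
  · rw [Nat.not_odd_iff_even] at h
    obtain ⟨k, hk⟩ := h
    rw [hk]
    push_cast
    rw [CharTwo.add_self_eq_zero, zero_mul]

/-- exponents after `E_k ... E_1`. -/
def pe (k : ℕ) (b : Fin (m + 1) → ℕ) : Fin (m + 1) → ℕ :=
  fun i => if i = 0 then b 0 + k else if (i : ℕ) ≤ k then b i - 1 else b i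

lemma Pop_mono (k : ℕ) (hk : k ≤ m) (b : Fin (m + 1) → ℕ) :
    Pop m k (mono b) = if ∀ i : Fin (m + 1), i ≠ 0 → (i : ℕ) ≤ k → Odd (b i) then
      mono (pe k b) else 0 := by
  induction k with
  | zero =>
    rw [if_pos, Pop]
    · congr 1
      funext i
      unfold pe
      by_cases h : i = 0
      · subst h; simp
      · have : (i : ℕ) ≠ 0 := fun h' => h (Fin.ext h')
        rw [if_neg h, if_neg (by omega)]
    · intro i hi h
      exact absurd (Fin.ext (by simpa using h)) hi
  | succ k ih =>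
    rw [Pop, ih (by omega)]
    have hE : E m (k + 1) = Ed m (k + 1) := by unfold E; rw [if_pos hk]
    rw [hE]
    by_cases hodd : ∀ i : Fin (m + 1), i ≠ 0 → (i : ℕ) ≤ k → Odd (b i)
    · rw [if_pos hodd, Ed_mono (k + 1) (by omega) hk]
      have hne : (⟨k + 1, by omega⟩ : Fin (m + 1)) ≠ 0 := by
        intro h; rw [Fin.ext_iff] at h; simp at h
      have hpe : pe k b ⟨k + 1, by omega⟩ = b ⟨k + 1, by omega⟩ := by
        unfold pe
        rw [if_neg hne, if_neg (by simp)]
      rw [hpe]
      by_cases hk1 : Odd (b ⟨k + 1, by omega⟩)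
      · rw [if_pos hk1, if_pos]
        · congr 1
          funext i
          unfold pe
          by_cases h : i = 0
          · subst h; simp; omega
          · rw [if_neg h, if_neg h, if_neg h]
            by_cases h2 : (i : ℕ) = k + 1
            · rw [if_pos h2, if_neg (by omega), if_pos (by omega)]
            · rw [if_neg h2]
              by_cases h3 : (i : ℕ) ≤ k
              · rw [if_pos h3, if_pos (by omega)]
              · rw [if_neg h3, if_neg (by omega)]
        · intro i hi h
          rcases Nat.lt_or_ge k (i : ℕ) with h2 | h2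
          · have : i = ⟨k + 1, by omega⟩ := Fin.ext (by simp; omega)
            rw [this]; exact hk1
          · exact hodd i hi h2
      · rw [if_neg hk1, if_neg]
        intro h
        exact hk1 (h _ hne (by simp))
    · rw [if_neg hodd, map_zero, if_neg]
      intro h
      exact hodd fun i hi h2 => h i hi (by omega)

/-- exponents after the halving operator. -/
def hf (b : Fin (m + 1) → ℕ) : Fin (m + 1) → ℕ :=
  fun i => if i = 0 then (b 0 + m) / 2 else b i / 2

/-- The exponents on which the halving operator does not vanish. -/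
def Rich (b : Fin (m + 1) → ℕ) : Prop := (∀ i, i ≠ 0 → Odd (b i)) ∧ Odd (b 0 + m)

open Classical in
/-- The halving operator. -/
def kap (m : ℕ) : D (m + 1) →ₗ[ZMod 2] D (m + 1) :=
  lin (fun b => if Rich b then mono (hf b) else 0)

open Classical in
lemma kap_mono (b : Fin (m + 1) → ℕ) : kap m (mono b) = if Rich b then mono (hf b) else 0 := by
  rw [kap, lin_mono]

lemma sum_pe_parity (b : Fin (m + 1) → ℕ) (h : ∀ i, i ≠ 0 → Odd (b i)) :
    Odd (∑ i, pe m b i) ↔ Odd (b 0 + m) := by
  rw [Fin.sum_univ_succ]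
  have h0 : pe m b 0 = b 0 + m := by simp [pe]
  have h1 : Even (∑ i : Fin m, pe m b i.succ) := by
    apply Finset.even_sum
    intro i _
    have hi : i.succ ≠ 0 := Fin.succ_ne_zero i
    have : pe m b i.succ = b i.succ - 1 := by
      unfold pe
      rw [if_neg hi, if_pos (by have := i.2; rw [Fin.val_succ]; omega)]
    rw [this]
    obtain ⟨k, hk⟩ := h _ hi
    exact ⟨k, by omega⟩
  rw [h0, Nat.odd_add]
  simp [h1]

lemma kap_sq (f : D (m + 1)) : (X 0 * kap m f) ^ 2 = Pop m (m + 1) f := by
  induction f using mono_induction with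
  | h0 => rw [map_zero, mul_zero, Pop_zero]; simp
  | ha f g hf hg =>
    rw [map_add, mul_add, CharTwo.add_sq, hf, hg, Pop_add]
  | hm b =>
    have hE : E m (m + 1) = Eu m := by unfold E; rw [if_neg (by omega)]
    rw [Pop, Pop_mono m le_rfl, hE, kap_mono]
    by_cases hodd : ∀ i : Fin (m + 1), i ≠ 0 → Odd (b i)
    · rw [if_pos (fun i hi _ => hodd i hi), Eu_mono]
      by_cases h0 : Odd (b 0 + m)
      · rw [if_pos ((sum_pe_parity b hodd).mpr h0), if_pos ⟨hodd, h0⟩]
        rw [X_eq_mono, mono_mul, pow_two, mono_mul]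
        congr 1
        funext i
        simp only [Pi.add_apply]
        unfold hf pe
        by_cases hi : i = 0
        · subst hi
          obtain ⟨k, hk⟩ := h0
          simp
          omega
        · rw [if_neg hi, if_neg hi, if_pos (by have := i.2; omega), Pi.single_apply, if_neg hi]
          obtain ⟨k, hk⟩ := hodd i hi
          omega
      · rw [if_neg (fun h => h0 ((sum_pe_parity b hodd).mp h)), if_neg (fun h => h0 h.2)]
        simp
    · have h2 : ¬ ∀ i : Fin (m + 1), i ≠ 0 → (i : ℕ) ≤ m → Odd (b i) := by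
        intro h
        exact hodd fun i hi => h i hi (by have := i.2; omega)
      rw [if_neg h2, map_zero, if_neg (fun h => hodd h.1)]
      simp

lemma S_ne_zero : S n ≠ 0 := by
  intro h
  have h1 : constantCoeff (S n) = 1 := by
    unfold S
    rw [map_add, map_sum, map_one]
    simp
  rw [h, map_zero] at h1
  exact zero_ne_one h1

lemma sq_inj {a b : D n} (h : a ^ 2 = b ^ 2) : a = b := by
  have h1 : (a + b) ^ 2 = 0 := by rw [CharTwo.add_sq, h, CharTwo.add_self_eq_zero]
  have h2 : a + b = 0 := by simpa using h1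
  have h3 : a = a + (b + b) := by rw [CharTwo.add_self_eq_zero, add_zero]
  rw [h3, ← add_assoc, h2, zero_add]

lemma X_mul_cancel {a b : D (m + 1)} (h : X 0 * a = X 0 * b) : a = b :=
  mul_left_cancel₀ (X_ne_zero 0) h

/-- The halving operator commutes with the total square. -/
lemma kap_sq_comm (f : D (m + 1)) : kap m (sq (m + 1) f) = sq (m + 1) (kap m f) := by
  have h1 : sq (m + 1) ((X 0 * kap m f) ^ 2) = S (m + 1) ^ 2 * (X 0 * kap m (sq (m + 1) f)) ^ 2 := by
    rw [kap_sq, kap_sq, sq_Pop_top]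
  rw [map_pow, map_mul, sq_X_zero] at h1
  have h2 : (S (m + 1) * X 0 * sq (m + 1) (kap m f)) ^ 2 =
      (S (m + 1) * X 0 * kap m (sq (m + 1) f)) ^ 2 := by
    rw [h1]; ring
  have h3 := sq_inj h2
  exact (mul_left_cancel₀ (mul_ne_zero S_ne_zero (X_ne_zero 0)) h3).symm

lemma kap_sq_mul (g f : D (m + 1)) : kap m (g ^ 2 * f) = g * kap m f := by
  apply X_mul_cancel
  apply sq_inj
  rw [kap_sq, Pop_sq_mul, ← kap_sq]
  ring

lemma kap_E {i : ℕ} (hi : 1 ≤ i) (hk : i ≤ m + 1) (f : D (m + 1)) : kap m (E m i f) = 0 := by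
  have h : (X 0 * kap m (E m i f)) ^ 2 = 0 := by
    rw [kap_sq, Pop_E (m + 1) hi hk]
  have h2 : X 0 * kap m (E m i f) = 0 := by simpa using h
  rcases mul_eq_zero.mp h2 with h3 | h3
  · exact absurd h3 (X_ne_zero 0)
  · exact h3

end

end Vale.Agent.P263.H968
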