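import Vale.Agent.P263.H968.Dick

/-!
Monomials of the abstract Dickson algebra, the weight filtration, and the unipotence of the
total Steenrod square.
-/

namespace Vale.Agent.P263.H968

open MvPolynomial Finset

noncomputable section

variable {m n : ℕ}

/-- The monomial with exponents `b`. -/
def mono (b : Fin n → ℕ) : D n := monomial (Finsupp.equivFunOnFinite.symm b) 1

lemma mono_eq_prod (b : Fin n → ℕ) : mono b = ∏ i, (X i : D n) ^ b i := by
  unfold mono
  rw [monomial_eq, C_1, one_mul, Finsupp.prod_fintype]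
  · rfl
  · intro i; simp

lemma mono_mul (b c : Fin n → ℕ) : mono b * mono c = mono (b + c) := by
  rw [mono_eq_prod, mono_eq_prod, mono_eq_prod, ← Finset.prod_mul_distrib]
  exact Finset.prod_congr rfl fun i _ => by rw [Pi.add_apply, pow_add]

lemma mono_zero : mono (0 : Fin n → ℕ) = 1 := by
  rw [mono_eq_prod]; simp

/-- Linear maps out of the Dickson algebra, defined on monomials. -/
def lin {V : Type*} [AddCommGroup V] [Module (ZMod 2) V] (F : (Fin n → ℕ) → V) :
    D n →ₗ[ZMod 2] V :=
  (basisMonomials (Fin n) (ZMod 2)).constr (ZMod 2) (fun b => F b)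

lemma lin_mono {V : Type*} [AddCommGroup V] [Module (ZMod 2) V] (F : (Fin n → ℕ) → V)
    (b : Fin n → ℕ) : lin F (mono b) = F b := by
  have h : mono b = basisMonomials (Fin n) (ZMod 2) (Finsupp.equivFunOnFinite.symm b) := by
    rw [coe_basisMonomials]; rfl
  rw [h, lin, Module.Basis.constr_basis]
  rfl

lemma mono_induction {P : D n → Prop} (h0 : P 0) (ha : ∀ f g, P f → P g → P (f + g))
    (hm : ∀ b, P (mono b)) (f : D n) : P f := by
  induction f using MvPolynomial.induction_on' with
  | monomial u a =>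
    have : a = 0 ∨ a = 1 := by revert a; decide
    rcases this with rfl | rfl
    · simpa using h0
    · have := hm u
      unfold mono at this
      convert this using 1
      congr 1
      ext i; simp
  | add p q hp hq => exact ha p q hp hq

/-- The weight (topological degree) of a monomial. -/
def weight (b : Fin n → ℕ) : ℕ := ∑ i, b i * (2 ^ n - 2 ^ (i : ℕ))

lemma weight_add (b c : Fin n → ℕ) : weight (b + c) = weight b + weight c := by
  unfold weight
  rw [← Finset.sum_add_distrib]
  exact Finset.sum_congr rfl fun i _ => by rw [Pi.add_apply]; ring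

/-- Elements all of whose monomials have weight at least `w`. -/
def Hi (n w : ℕ) : Submodule (ZMod 2) (D n) :=
  Submodule.span (ZMod 2) {f | ∃ b, w ≤ weight b ∧ f = mono b}

lemma mono_mem_Hi {w : ℕ} {b : Fin n → ℕ} (h : w ≤ weight b) : mono b ∈ Hi n w :=
  Submodule.subset_span ⟨b, h, rfl⟩

lemma Hi_anti {w w' : ℕ} (h : w ≤ w') : Hi n w' ≤ Hi n w := by
  apply Submodule.span_mono
  rintro f ⟨b, hb, rfl⟩
  exact ⟨b, h.trans hb, rfl⟩

lemma mem_Hi_zero (f : D n) : f ∈ Hi n 0 := by
  induction f using mono_induction with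
  | h0 => exact Submodule.zero_mem _
  | ha f g hf hg => exact Submodule.add_mem _ hf hg
  | hm b => exact mono_mem_Hi (Nat.zero_le _)

lemma Hi_mul {w w' : ℕ} {f g : D n} (hf : f ∈ Hi n w) (hg : g ∈ Hi n w') :
    f * g ∈ Hi n (w + w') := by
  have h : Hi n w * Hi n w' ≤ Hi n (w + w') := by
    unfold Hi
    rw [Submodule.span_mul_span]
    apply Submodule.span_mono
    rintro _ ⟨f, ⟨b, hb, rfl⟩, g, ⟨c, hc, rfl⟩, rfl⟩
    exact ⟨b + c, by rw [weight_add]; omega, mono_mul b c⟩
  exact h (Submodule.mul_mem_mul hf hg)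

lemma X_eq_mono (i : Fin n) : (X i : D n) = mono (Pi.single i 1) := by
  rw [mono_eq_prod, Finset.prod_eq_single i]
  · simp
  · intro j _ hj; simp [hj]
  · intro h; exact absurd (Finset.mem_univ _) h

lemma weight_single (i : Fin n) : weight (Pi.single i 1) = 2 ^ n - 2 ^ (i : ℕ) := by
  unfold weight
  rw [Finset.sum_eq_single i]
  · simp
  · intro j _ hj; simp [hj]
  · intro h; exact absurd (Finset.mem_univ _) h

lemma X_mem_Hi (i : Fin n) {w : ℕ} (h : w ≤ 2 ^ n - 2 ^ (i : ℕ)) : (X i : D n) ∈ Hi n w := by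
  rw [X_eq_mono]
  exact mono_mem_Hi (by rw [weight_single]; exact h)

lemma wt_pos (i : Fin n) : 1 ≤ 2 ^ n - 2 ^ (i : ℕ) := by
  have : 2 ^ (i : ℕ) < 2 ^ n := Nat.pow_lt_pow_right (by norm_num) i.2
  omega

lemma wt_lt {i j : Fin n} (h : j < i) : 2 ^ n - 2 ^ (i : ℕ) < 2 ^ n - 2 ^ (j : ℕ) := by
  have h1 : 2 ^ (j : ℕ) < 2 ^ (i : ℕ) := Nat.pow_lt_pow_right (by norm_num) h
  have h2 : 2 ^ (i : ℕ) < 2 ^ n := Nat.pow_lt_pow_right (by norm_num) i.2
  omega

/-- `f` has weight at least `w` and `sq f` agrees with `f` in weight `w`. -/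
def Lead (w : ℕ) (f : D n) : Prop := f ∈ Hi n w ∧ sq n f - f ∈ Hi n (w + 1)

lemma Lead.sq_mem {w : ℕ} {f : D n} (h : Lead w f) : sq n f ∈ Hi n w := by
  have : sq n f = f + (sq n f - f) := by ring
  rw [this]
  exact Submodule.add_mem _ h.1 (Hi_anti (Nat.le_succ w) h.2)

lemma Lead.mul {w w' : ℕ} {f g : D n} (hf : Lead w f) (hg : Lead w' g) :
    Lead (w + w') (f * g) := by
  refine ⟨Hi_mul hf.1 hg.1, ?_⟩
  have : sq n (f * g) - f * g = (sq n f - f) * sq n g + f * (sq n g - g) := by
    rw [map_mul]; ring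
  rw [this]
  apply Submodule.add_mem
  · have := Hi_mul hf.2 hg.sq_mem
    exact Hi_anti (by omega) this
  · have := Hi_mul hf.1 hg.2
    exact Hi_anti (by omega) this

lemma Lead.one : Lead 0 (1 : D n) := by
  refine ⟨mem_Hi_zero _, ?_⟩
  rw [map_one, sub_self]
  exact Submodule.zero_mem _

lemma Lead.pow {w : ℕ} {f : D n} (hf : Lead w f) (k : ℕ) : Lead (k * w) (f ^ k) := by
  induction k with
  | zero => simpa using Lead.one
  | succ k ih =>
    rw [pow_succ, Nat.succ_mul]
    exact ih.mul hf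

lemma S_sub_one_mem : S n - 1 ∈ Hi n 1 := by
  unfold S
  rw [add_sub_cancel_left]
  exact Submodule.sum_mem _ fun j _ => X_mem_Hi j (wt_pos j)

lemma lead_X (i : Fin n) : Lead (2 ^ n - 2 ^ (i : ℕ)) (X i : D n) := by
  refine ⟨X_mem_Hi i le_rfl, ?_⟩
  have hT : T i = X i + ∑ j ∈ univ.filter (fun j => j < i), (X j : D n) := by
    unfold T
    have : univ.filter (fun j : Fin n => j ≤ i) = insert i (univ.filter (fun j => j < i)) := by
      ext j
      simp only [Finset.mem_filter, Finset.mem_univ, true_and, Finset.mem_insert]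
      exact le_iff_eq_or_lt
    rw [this, Finset.sum_insert (by simp)]
  have hlow : ∑ j ∈ univ.filter (fun j => j < i), (MvPolynomial.X j : D n) ∈
      Hi n (2 ^ n - 2 ^ (i : ℕ) + 1) := by
    apply Submodule.sum_mem
    intro j hj
    simp only [Finset.mem_filter, Finset.mem_univ, true_and] at hj
    exact X_mem_Hi j (wt_lt hj)
  have hTm : T i ∈ Hi n (2 ^ n - 2 ^ (i : ℕ)) := by
    rw [hT]
    exact Submodule.add_mem _ (X_mem_Hi i le_rfl) (Hi_anti (Nat.le_succ _) hlow)
  have e : sq n (MvPolynomial.X i) - MvPolynomial.X i = T i * (S n - 1) +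
      ∑ j ∈ univ.filter (fun j => j < i), (MvPolynomial.X j : D n) +
      ∑ j ∈ univ.filter (fun j => j < i), (MvPolynomial.X j : D n) ^ 2 := by
    rw [sq_X, sqGen]
    have : S n * T i = T i * (S n - 1) + T i := by ring
    rw [this]
    nth_rewrite 2 [hT]
    ring
  rw [e]
  refine Submodule.add_mem _ (Submodule.add_mem _ (Hi_mul hTm S_sub_one_mem) hlow) ?_
  apply Submodule.sum_mem
  intro j hj
  simp only [Finset.mem_filter, Finset.mem_univ, true_and] at hj
  rw [pow_two]
  have h1 := wt_lt hj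
  have h2 := Hi_mul (X_mem_Hi (n := n) j le_rfl) (X_mem_Hi (n := n) j le_rfl)
  exact Hi_anti (by omega) h2

lemma lead_mono (b : Fin n → ℕ) : Lead (weight b) (mono b) := by
  rw [mono_eq_prod]
  unfold weight
  have : ∀ s : Finset (Fin n), Lead (∑ i ∈ s, b i * (2 ^ n - 2 ^ (i : ℕ)))
      (∏ i ∈ s, (MvPolynomial.X i : D n) ^ b i) := by
    intro s
    induction s using Finset.induction_on with
    | empty => simpa using Lead.one
    | insert a s ha ih =>
      rw [Finset.sum_insert ha, Finset.prod_insert ha]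
      exact ((lead_X a).pow _).mul ih
  exact this _

lemma zero_on_Hi {z : D n →ₗ[ZMod 2] ZMod 2} {w : ℕ}
    (hz : ∀ b, w ≤ weight b → z (mono b) = 0) {f : D n} (hf : f ∈ Hi n w) : z f = 0 := by
  have : Hi n w ≤ LinearMap.ker z := by
    unfold Hi
    rw [Submodule.span_le]
    rintro f ⟨b, hb, rfl⟩
    exact hz b hb
  exact this hf

/-- A functional of bounded weight that kills `U * sq g` for all `g` is zero, if `U = 1 + ...`. -/
lemma unip {U : D n} (hU : U - 1 ∈ Hi n 1) (z : D n →ₗ[ZMod 2] ZMod 2) (N : ℕ)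
    (hz : ∀ b, N < weight b → z (mono b) = 0) (h : ∀ b, z (U * sq n (mono b)) = 0)
    (g : D n) : z g = 0 := by
  have key : ∀ k, ∀ b, N < weight b + k → z (mono b) = 0 := by
    intro k
    induction k with
    | zero => intro b hb; exact hz b hb
    | succ k ih =>
      intro b hb
      have h1 := h b
      have hl := lead_mono b
      have e : U * sq n (mono b) = mono b + ((U - 1) * sq n (mono b) + (sq n (mono b) - mono b)) := by
        ring
      rw [e, map_add] at h1
      have h2 : (U - 1) * sq n (mono b) + (sq n (mono b) - mono b) ∈ Hi n (weight b + 1) := by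
        apply Submodule.add_mem _ _ hl.2
        have := Hi_mul hU hl.sq_mem
        exact Hi_anti (by omega) this
      have h3 := zero_on_Hi (z := z) (w := weight b + 1) (fun c hc => ih c (by omega)) h2
      rw [h3, add_zero] at h1
      exact h1
  induction g using mono_induction with
  | h0 => exact map_zero z
  | ha f g hf hg => rw [map_add, hf, hg, add_zero]
  | hm b => exact key (N + 1) b (by omega)

lemma one_add_mul_sub_one_mem {U V : D n} (hU : U - 1 ∈ Hi n 1) (hV : V - 1 ∈ Hi n 1) :
    U * V - 1 ∈ Hi n 1 := by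
  have : U * V - 1 = (U - 1) * V + (V - 1) := by ring
  rw [this]
  have h1 := Hi_mul hU (mem_Hi_zero V)
  rw [Nat.add_zero] at h1
  exact Submodule.add_mem _ h1 hV

lemma S_pow_sub_one_mem (a : ℕ) : S n ^ a - 1 ∈ Hi n 1 := by
  induction a with
  | zero => rw [pow_zero, sub_self]; exact Submodule.zero_mem _
  | succ a ih => rw [pow_succ]; exact one_add_mul_sub_one_mem ih S_sub_one_mem

lemma sq_X0_pow_mul (a : ℕ) (g : D (m + 1)) :
    sq (m + 1) (X 0 ^ a * g) = X 0 ^ a * (S (m + 1) ^ a * sq (m + 1) g) := by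
  rw [map_mul, map_pow, sq_X_zero]; ring

end

end Vale.Agent.P263.H968
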