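import Mathlib.AlgebraicTopology.SingularHomology.Basic
import Mathlib.Topology.Compactification.OnePoint.Basic
import Mathlib.CategoryTheory.Functor.OfSequence
import Mathlib.Topology.Category.TopCat.Limits.Basic
import Mathlib.Algebra.Category.ModuleCat.Abelian
import Mathlib.Algebra.Category.ModuleCat.Colimits
import Mathlib.Topology.CompactOpen
import Mathlib.Topology.Maps.Proper.Basic
import Mathlib.Topology.Connected.PathConnected
import Mathlib.Topology.Instances.Real.Lemmas
import Mathlib.Algebra.Field.ZMod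

/-!
The space `Q_0 S^0` and the mod 2 Hurewicz homomorphism.
-/

namespace Vale.Agent.P263.H968

open CategoryTheory Limits Topology OnePoint

noncomputable section

/-- The sphere `S^r`, the one point compactification of `ℝ^r`, with base point `∞`. -/
abbrev Sph (r : ℕ) : Type := OnePoint (Fin r → ℝ)

/-- The smash product `S^r × S^1 → S^{r+1}`, `(x, t) ↦ (x, t)`, everything else goes to `∞`. -/
def smash {r : ℕ} (x : Sph r) (t : OnePoint ℝ) : Sph (r + 1) :=
  x.elim ∞ fun x' => t.elim ∞ fun t' => ((Fin.snoc x' t' : Fin (r + 1) → ℝ) : Sph (r + 1))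

/-- The suspension of a self map of `S^r`: `(x, t) ↦ (f x, t)` on `ℝ^r × ℝ = ℝ^{r+1}`, and
`∞ ↦ ∞`. -/
def suspFun {r : ℕ} (f : Sph r → Sph r) (y : Sph (r + 1)) : Sph (r + 1) :=
  y.elim ∞ fun y' => smash (f ((Fin.init y' : Fin r → ℝ) : Sph r)) ((y' (Fin.last r) : ℝ) : OnePoint ℝ)

/-- The points of `Ω^r S^r`: the based continuous self maps of `S^r`. -/
structure Loops (r : ℕ) where
  /-- the underlying map -/
  map : Sph r → Sph r
  /-- continuity -/
  cont : Continuous map
  /-- the base point is preserved -/
  based : map ∞ = ∞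

/-- A based self map of `S^r` as a continuous map. -/
def Loops.toC {r : ℕ} (f : Loops r) : C(Sph r, Sph r) := ⟨f.map, f.cont⟩

/-- `Ω^r S^r` has the compact-open topology. -/
instance (r : ℕ) : TopologicalSpace (Loops r) :=
  TopologicalSpace.induced Loops.toC ContinuousMap.compactOpen

lemma continuous_toC {r : ℕ} : Continuous (Loops.toC (r := r)) := continuous_induced_dom

lemma smash_coe {r : ℕ} (x : Fin r → ℝ) (t : ℝ) :
    smash (x : Sph r) (t : OnePoint ℝ) = ((Fin.snoc x t : Fin (r + 1) → ℝ) : Sph (r + 1)) := rfl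

lemma smash_infty_left {r : ℕ} (t : OnePoint ℝ) : smash (∞ : Sph r) t = ∞ := rfl

lemma smash_infty_right {r : ℕ} (x : Sph r) : smash x (∞ : OnePoint ℝ) = ∞ := by
  induction x using OnePoint.rec <;> rfl

lemma suspFun_smash {r : ℕ} (f : Loops r) (x : Sph r) (t : OnePoint ℝ) :
    suspFun f.map (smash x t) = smash (f.map x) t := by
  induction x using OnePoint.rec with
  | infty => rw [f.based, smash_infty_left]; rfl
  | coe x =>
    induction t using OnePoint.rec with
    | infty => rw [smash_infty_right, smash_infty_right]; rfl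
    | coe t =>
      rw [smash_coe]
      unfold suspFun
      simp

/-- splitting off the last coordinate. -/
def snocHomeo (r : ℕ) : ((Fin r → ℝ) × ℝ) ≃ₜ (Fin (r + 1) → ℝ) where
  toFun p := Fin.snoc p.1 p.2
  invFun y := (Fin.init y, y (Fin.last r))
  left_inv p := by simp
  right_inv y := by simp
  continuous_toFun := by
    apply continuous_pi
    intro i
    refine Fin.lastCases ?_ (fun j => ?_) i
    · simp only [Fin.snoc_last]; exact continuous_snd
    · simp only [Fin.snoc_castSucc]; exact (continuous_apply j).comp continuous_fst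
  continuous_invFun := by
    apply Continuous.prodMk
    · apply continuous_pi
      intro j
      exact continuous_apply _
    · exact continuous_apply _

lemma preimage_smash {r : ℕ} (W : Set (Sph (r + 1))) (hW : ∞ ∉ W) :
    (fun p : Sph r × OnePoint ℝ => smash p.1 p.2) ⁻¹' W =
      Prod.map (fun x : Fin r → ℝ => (x : Sph r)) (fun t : ℝ => (t : OnePoint ℝ)) ''
        ((snocHomeo r) ⁻¹' ((fun y : Fin (r + 1) → ℝ => (y : Sph (r + 1))) ⁻¹' W)) := by
  ext ⟨x, t⟩
  simp only [Set.mem_preimage, Set.mem_image, Prod.exists, Prod.map_apply, Prod.mk.injEq]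
  constructor
  · intro h
    induction x using OnePoint.rec with
    | infty => rw [smash_infty_left] at h; exact absurd h hW
    | coe x =>
      induction t using OnePoint.rec with
      | infty => rw [smash_infty_right] at h; exact absurd h hW
      | coe t => exact ⟨x, t, h, rfl, rfl⟩
  · rintro ⟨x, t, h, rfl, rfl⟩
    exact h

lemma continuous_smash {r : ℕ} :
    Continuous (fun p : Sph r × OnePoint ℝ => smash p.1 p.2) := by
  rw [continuous_def]
  intro U hU
  by_cases h : ∞ ∈ U
  · have hc : ∞ ∉ Uᶜ := fun h' => h' h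
    have h1 := (OnePoint.isOpen_iff_of_mem h).mp hU
    have h2 := preimage_smash Uᶜ hc
    have h3 : (fun y : Fin (r + 1) → ℝ => (y : Sph (r + 1))) ⁻¹' Uᶜ =
        ((fun y : Fin (r + 1) → ℝ => (y : Sph (r + 1))) ⁻¹' U)ᶜ := rfl
    have h4 : IsCompact ((snocHomeo r) ⁻¹' ((fun y : Fin (r + 1) → ℝ => (y : Sph (r + 1))) ⁻¹' Uᶜ)) := by
      rw [(snocHomeo r).isCompact_preimage, h3]
      exact h1.2
    have h5 : IsClosed ((fun p : Sph r × OnePoint ℝ => smash p.1 p.2) ⁻¹' Uᶜ) := by
      rw [h2]
      exact (h4.image (continuous_coe.prodMap continuous_coe)).isClosed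
    rw [Set.preimage_compl] at h5
    exact isClosed_compl_iff.mp h5
  · rw [preimage_smash U h]
    have h1 := (OnePoint.isOpen_iff_of_notMem h).mp hU
    have h2 : IsOpen ((snocHomeo r) ⁻¹' ((fun y : Fin (r + 1) → ℝ => (y : Sph (r + 1))) ⁻¹' U)) :=
      h1.preimage (snocHomeo r).continuous
    exact (isOpenEmbedding_coe.prodMap isOpenEmbedding_coe).isOpenMap _ h2

lemma surjective_smash {r : ℕ} :
    Function.Surjective (fun p : Sph r × OnePoint ℝ => smash p.1 p.2) := by
  intro y
  induction y using OnePoint.rec with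
  | infty => exact ⟨(∞, ∞), rfl⟩
  | coe y => exact ⟨(((Fin.init y : Fin r → ℝ) : Sph r), ((y (Fin.last r) : ℝ) : OnePoint ℝ)), by
      simp [smash_coe]⟩

lemma continuous_suspFun_joint {r : ℕ} :
    Continuous (fun p : Loops r × Sph (r + 1) => suspFun p.1.map p.2) := by
  have hprop : IsProperMap (fun p : Sph r × OnePoint ℝ => smash p.1 p.2) :=
    continuous_smash.isProperMap
  have hq : IsQuotientMap (Prod.map (id : Loops r → Loops r)
      (fun p : Sph r × OnePoint ℝ => smash p.1 p.2)) :=
    (isProperMap_id.prodMap hprop).isClosedMap.isQuotientMap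
      (continuous_id.prodMap continuous_smash)
      (Function.surjective_id.prodMap surjective_smash)
  rw [hq.continuous_iff]
  have h1 : (fun p : Loops r × Sph (r + 1) => suspFun p.1.map p.2) ∘
      (Prod.map (id : Loops r → Loops r) (fun p : Sph r × OnePoint ℝ => smash p.1 p.2)) =
      (fun p : Sph r × OnePoint ℝ => smash p.1 p.2) ∘
        (fun q : Loops r × (Sph r × OnePoint ℝ) => (q.1.toC q.2.1, q.2.2)) := by
    funext ⟨f, x, t⟩
    exact suspFun_smash f x t
  rw [h1]
  apply continuous_smash.comp
  apply Continuous.prodMk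
  · exact (continuous_toC.comp continuous_fst).eval (continuous_fst.comp continuous_snd)
  · exact continuous_snd.comp continuous_snd

lemma continuous_suspFun {r : ℕ} (f : Loops r) : Continuous (suspFun f.map) :=
  continuous_suspFun_joint.comp (Continuous.prodMk_right f)

/-- The suspension of a based self map of `S^r`. -/
def suspLoop {r : ℕ} (f : Loops r) : Loops (r + 1) := ⟨suspFun f.map, continuous_suspFun f, rfl⟩

lemma continuous_suspLoop {r : ℕ} : Continuous (suspLoop (r := r)) := by
  rw [continuous_induced_rng]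
  exact ContinuousMap.continuous_of_continuous_uncurry _ continuous_suspFun_joint

/-- `Ω^r S^r` as an object of the category of topological spaces. -/
def loopSpace (r : ℕ) : TopCat.{0} := TopCat.of (Loops r)

/-- The stabilization map `Ω^r S^r → Ω^{r+1} S^{r+1}`. -/
def stab (r : ℕ) : loopSpace r ⟶ loopSpace (r + 1) := TopCat.ofHom ⟨suspLoop, continuous_suspLoop⟩

/-- The sequence `Ω^0 S^0 → Ω^1 S^1 → Ω^2 S^2 → ...`. -/
def tower : ℕ ⥤ TopCat.{0} := Functor.ofSequence stab

/-- The space `QS^0 = colim_r Ω^r S^r`. -/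
def QS0 : TopCat.{0} := colimit tower

/-- The constant map, the base point of `Ω^0 S^0`. -/
def constLoop : Loops 0 := ⟨fun _ => ∞, continuous_const, rfl⟩

/-- The base point of `QS^0`, the class of the constant map. -/
def basePoint : QS0 := (colimit.ι tower 0).hom constLoop

/-- `Q_0 S^0`, the path component of the base point of `QS^0`. -/
def Q0S0 : TopCat.{0} := TopCat.of (pathComponent basePoint)

/-- The base point of `Q_0 S^0`. -/
def base0 : Q0S0 := (⟨basePoint, mem_pathComponent_self _⟩ : pathComponent basePoint)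

/-- The sphere `S^d` as an object of the category of topological spaces. -/
def sphere (d : ℕ) : TopCat.{0} := TopCat.of (Sph d)

/-- The base point of `S^d`. -/
def sphereBase (d : ℕ) : sphere d := (∞ : Sph d)

/-- Singular homology `H_d(-; F_2)`. -/
def H2 (d : ℕ) : TopCat.{0} ⥤ ModuleCat.{0} (ZMod 2) :=
  (AlgebraicTopology.singularHomologyFunctor (ModuleCat.{0} (ZMod 2)) d).obj
    (ModuleCat.of (ZMod 2) (ZMod 2))

/-- `h_d` is nonzero: some based map `f : S^d → Q_0 S^0` induces a nonzero map on `H_d(-; F_2)`. -/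
def HasSphericalClass (d : ℕ) : Prop :=
  ∃ f : sphere d ⟶ Q0S0, f.hom (sphereBase d) = base0 ∧ (H2 d).map f ≠ 0

end

end Vale.Agent.P263.H968
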