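import Vale.Agent.P263.H968.Ann

/-!
The R step: reduction of the rank.
-/

namespace Vale.Agent.P263.H968

open MvPolynomial Finset

noncomputable section

variable {m n : ℕ}

/-- `X_j ↦ X_{j+1}`. -/
def tau (n : ℕ) : D n →ₐ[ZMod 2] D (n + 1) := aeval (fun j => X j.succ)

/-- `X_0 ↦ 0`, `X_{j+1} ↦ X_j`. -/
def sigma (n : ℕ) : D (n + 1) →ₐ[ZMod 2] D n := aeval (Fin.cons 0 X)

lemma tau_X (j : Fin n) : tau n (X j) = X j.succ := by simp [tau]

lemma sigma_X_zero : sigma n (X 0) = 0 := by simp [sigma]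

lemma sigma_X_succ (j : Fin n) : sigma n (X j.succ) = X j := by simp [sigma]

lemma sigma_tau (f : D n) : sigma n (tau n f) = f := by
  have : (sigma n).comp (tau n) = AlgHom.id (ZMod 2) (D n) := by
    apply algHom_ext
    intro i
    rw [AlgHom.comp_apply, tau_X, sigma_X_succ, AlgHom.id_apply]
  exact DFunLike.congr_fun this f

lemma S_succ : S (n + 1) = X 0 + tau n (S n) := by
  unfold S
  rw [map_add, map_one, map_sum, Fin.sum_univ_succ]
  simp only [tau_X]
  ring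

lemma T_succ (j : Fin n) : T j.succ = X 0 + tau n (T j) := by
  unfold T
  rw [map_sum, Finset.sum_filter, Finset.sum_filter, Fin.sum_univ_succ, if_pos (Fin.zero_le _)]
  simp only [tau_X, Fin.succ_le_succ_iff]

lemma lowsq_succ (j : Fin n) :
    ∑ l ∈ univ.filter (fun l => l < j.succ), (X l : D (n + 1)) ^ 2 =
      X 0 ^ 2 + tau n (∑ l ∈ univ.filter (fun l => l < j), X l ^ 2) := by
  rw [map_sum, Finset.sum_filter, Finset.sum_filter, Fin.sum_univ_succ, if_pos (Fin.succ_pos _)]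
  simp only [map_pow, tau_X, Fin.succ_lt_succ_iff]

/-- The total square of `X_{j+1}`. -/
lemma sq_X_succ (j : Fin n) : sq (n + 1) (X j.succ) =
    (X 0 + tau n (S n)) * (X 0 + tau n (T j)) +
      (X 0 ^ 2 + tau n (∑ l ∈ univ.filter (fun l => l < j), X l ^ 2)) := by
  rw [sq_X, sqGen, S_succ, T_succ, lowsq_succ]

lemma sigma_sq (f : D (n + 1)) : sigma n (sq (n + 1) f) = sq n (sigma n f) := by
  have : (sigma n).comp (sq (n + 1)) = (sq n).comp (sigma n) := by
    apply algHom_ext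
    intro i
    rw [AlgHom.comp_apply, AlgHom.comp_apply]
    refine Fin.cases ?_ (fun j => ?_) i
    · rw [sq_X_zero, map_mul, sigma_X_zero, mul_zero, map_zero]
    · rw [sq_X_succ, sigma_X_succ, sq_X, sqGen]
      simp only [map_add, map_mul, map_pow, sigma_X_zero, sigma_tau]
      ring
  exact DFunLike.congr_fun this f

lemma sigma_S : sigma n (S (n + 1)) = S n := by
  rw [S_succ, map_add, sigma_X_zero, sigma_tau, zero_add]

lemma split_X0 (f : D (n + 1)) : ∃ q, f = tau n (sigma n f) + X 0 * q := by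
  induction f using MvPolynomial.induction_on with
  | C a =>
    refine ⟨0, ?_⟩
    simp [sigma, tau]
  | add p q hp hq =>
    obtain ⟨u, hu⟩ := hp
    obtain ⟨v, hv⟩ := hq
    refine ⟨u + v, ?_⟩
    rw [map_add, map_add]
    nth_rewrite 1 [hu]
    nth_rewrite 1 [hv]
    ring
  | mul_X p i hp =>
    obtain ⟨u, hu⟩ := hp
    revert i
    refine Fin.cases ?_ (fun j => ?_)
    · refine ⟨p, ?_⟩
      rw [map_mul, sigma_X_zero, mul_zero, map_zero]
      ring
    · refine ⟨u * X j.succ, ?_⟩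
      rw [map_mul, map_mul, sigma_X_succ, tau_X]
      nth_rewrite 1 [hu]
      ring

lemma X0_pow_tau_mono (a : ℕ) (c : Fin n → ℕ) :
    X 0 ^ a * tau n (mono c) = mono (Fin.cons a c : Fin (n + 1) → ℕ) := by
  rw [mono_eq_prod, mono_eq_prod, map_prod, Fin.prod_univ_succ]
  simp only [map_pow, tau_X, Fin.cons_zero, Fin.cons_succ]

lemma weight_cons (a : ℕ) (c : Fin n → ℕ) :
    weight (Fin.cons a c : Fin (n + 1) → ℕ) = a * (2 ^ (n + 1) - 1) + 2 * weight c := by
  unfold weight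
  rw [Fin.sum_univ_succ, Finset.mul_sum]
  simp only [Fin.cons_zero, Fin.cons_succ, Fin.val_zero, pow_zero, Fin.val_succ]
  congr 1
  apply Finset.sum_congr rfl
  intro i _
  have : 2 ^ (n + 1) - 2 ^ ((i : ℕ) + 1) = 2 * (2 ^ n - 2 ^ (i : ℕ)) := by
    rw [Nat.mul_sub, ← pow_succ', ← pow_succ']
  rw [this]
  ring

/-- The functional of rank `m + 1` attached to one of rank `m + 2`. -/
def desc (a : ℕ) (x : D (m + 2) →ₗ[ZMod 2] ZMod 2) : D (m + 1) →ₗ[ZMod 2] ZMod 2 :=
  lin (fun b => if a ≤ b 0 then x (X 0 ^ a * tau (m + 1) (mono (b - Pi.single 0 a))) else 0)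

lemma desc_mono_lt {a : ℕ} (x : D (m + 2) →ₗ[ZMod 2] ZMod 2) {b : Fin (m + 1) → ℕ}
    (h : b 0 < a) : desc a x (mono b) = 0 := by
  rw [desc, lin_mono, if_neg (by omega)]

lemma desc_apply (a : ℕ) (x : D (m + 2) →ₗ[ZMod 2] ZMod 2) (g : D (m + 1)) :
    desc a x (X 0 ^ a * g) = x (X 0 ^ a * tau (m + 1) g) := by
  induction g using mono_induction with
  | h0 => simp
  | ha f g hf hg => rw [mul_add, map_add, map_add, mul_add, map_add, hf, hg]
  | hm b =>
    rw [X0_pow_mul_mono, desc, lin_mono, if_pos (by simp)]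
    congr 4
    funext i
    simp

lemma desc_deg {a d : ℕ} {x : D (m + 2) →ₗ[ZMod 2] ZMod 2} (hx : Ann (m + 1) a d x)
    (b : Fin (m + 1) → ℕ) (hb : desc a x (mono b) ≠ 0) : d = 2 * weight b + a := by
  have h1 : a ≤ b 0 := by
    by_contra h
    exact hb (desc_mono_lt x (by omega))
  rw [mono_of_ge h1, desc_apply, X0_pow_tau_mono] at hb
  have h2 : weight (Fin.cons a (b - Pi.single 0 a) : Fin (m + 2) → ℕ) = d := by
    by_contra h
    exact hb (hx.deg _ h)
  rw [weight_cons] at h2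
  have h3 : b = (b - Pi.single 0 a) + Pi.single 0 a := by
    funext i
    by_cases hi : i = 0
    · subst hi; simp; omega
    · simp [hi]
  have h4 : weight (Pi.single 0 a : Fin (m + 1) → ℕ) = a * (2 ^ (m + 1) - 1) := by
    unfold weight
    rw [Finset.sum_eq_single 0]
    · simp
    · intro j _ hj; simp [hj]
    · intro h; exact absurd (Finset.mem_univ _) h
  have h5 : weight b = weight (b - Pi.single 0 a) + a * (2 ^ (m + 1) - 1) := by
    rw [← h4, ← weight_add, ← h3]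
  rw [h5, ← h2]
  have h6 : 2 ^ (m + 1 + 1) - 1 = 2 * (2 ^ (m + 1) - 1) + 1 := by
    have : 1 ≤ 2 ^ (m + 1) := Nat.one_le_two_pow
    rw [pow_succ 2 (m + 1)]; omega
  rw [h6]
  ring

/-- The R step. -/
theorem rstep {a d : ℕ} {x : D (m + 2) →ₗ[ZMod 2] ZMod 2} (hx : Ann (m + 1) a d x)
    (h0 : ∀ g, x (X 0 ^ (a + 1) * g) = 0) (hne : ∃ g, x (X 0 ^ a * g) ≠ 0) :
    ∃ d', d = 2 * d' + a ∧ Ann m a d' (desc a x) ∧ ∃ g, desc a x (X 0 ^ a * g) ≠ 0 := by
  obtain ⟨g, hg⟩ := hne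
  have hred : ∀ f, x (X 0 ^ a * f) = x (X 0 ^ a * tau (m + 1) (sigma (m + 1) f)) := by
    intro f
    obtain ⟨q, hq⟩ := split_X0 f
    nth_rewrite 1 [hq]
    have : (X 0 : D (m + 2)) ^ a * (tau (m + 1) (sigma (m + 1) f) + X 0 * q) =
      X 0 ^ a * tau (m + 1) (sigma (m + 1) f) + X 0 ^ (a + 1) * q := by ring
    rw [this, map_add, h0, add_zero]
  have hne' : desc a x (X 0 ^ a * sigma (m + 1) g) ≠ 0 := by
    rw [desc_apply, ← hred]
    exact hg
  obtain ⟨b, hb, hb2⟩ := exists_mono_ne hne'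
  have hd := desc_deg hx b hb2
  refine ⟨weight b, hd, ⟨?_, ?_⟩, ⟨_, hne'⟩⟩
  · intro c hc
    by_contra h
    have := desc_deg hx c h
    omega
  · intro h
    have e : sigma (m + 1) (S (m + 2) ^ a * sq (m + 2) (tau (m + 1) h)) =
        S (m + 1) ^ a * sq (m + 1) h := by
      rw [map_mul, map_pow, sigma_S, sigma_sq, sigma_tau]
    rw [sq_X0_pow_mul, desc_apply, desc_apply, ← hx.ann (tau (m + 1) h), sq_X0_pow_mul,
      hred (S (m + 2) ^ a * _), e]

/-- Rank one. -/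
theorem term_step {a d : ℕ} {x : D 1 →ₗ[ZMod 2] ZMod 2} (hx : Ann 0 a d x)
    (h0 : ∀ g, x (X 0 ^ (a + 1) * g) = 0) (hne : ∃ g, x (X 0 ^ a * g) ≠ 0) : d = a := by
  obtain ⟨g, hg⟩ := hne
  obtain ⟨b, hb, hb2⟩ := exists_mono_ne hg
  have h1 : b 0 = a := by
    by_contra h
    apply hb2
    rw [mono_of_ge (show a + 1 ≤ b 0 by omega)]
    exact h0 _
  have h2 : weight b = d := by
    by_contra h
    exact hb2 (hx.deg _ h)
  rw [← h2]
  unfold weight
  simp [h1]

end

end Vale.Agent.P263.H968
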