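import Vale.Agent.P263.H968.Forbid

/-!
The word attached to a nonzero functional, and the count of the allowed words.
-/

namespace Vale.Agent.P263.H968

open MvPolynomial Finset

noncomputable section

variable {m n : ℕ}

/-- The degree encoded by a word, from rank `n` and excess `a`. The letter `true` halves, the letter
`false` lowers the rank. -/
def val : ℕ → ℕ → List Bool → ℕ
  | _, _, [] => 0
  | n, a, true :: w => 2 * val n ((a + n) / 2) w + n
  | n, a, false :: w => 2 * val (n - 1) a w + a

/-- The transition of `h = rank - excess`. -/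
def stp : ℤ → Bool → ℤ
  | h, true => (h + 1) / 2
  | h, false => h - 1

/-- The words without a forbidden pattern. -/
def ok : ℤ → List Bool → Prop
  | _, [] => True
  | h, c :: w => ¬ (h % 4 = 2 ∧ c = true ∧ ∃ v, w = false :: true :: v) ∧ ok (stp h c) w

lemma kap_stable (a : ℕ) (g : D (m + 1)) :
    ∃ g', kap m (X 0 ^ (a + 1) * g) = X 0 ^ ((a + m + 1) / 2) * g' := by
  classical
  induction g using mono_induction with
  | h0 => exact ⟨0, by simp⟩
  | ha f g hf hg =>
    obtain ⟨u, hu⟩ := hf
    obtain ⟨v, hv⟩ := hg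
    exact ⟨u + v, by rw [mul_add, map_add, hu, hv, mul_add]⟩
  | hm b =>
    rw [X0_pow_mul_mono, kap_mono]
    split_ifs with h
    · refine ⟨_, mono_of_ge ?_⟩
      obtain ⟨k, hk⟩ := h.2
      simp only [Pi.add_apply, Pi.single_eq_same] at hk
      simp only [hf, if_pos, Pi.add_apply, Pi.single_eq_same]
      omega
    · exact ⟨0, by simp⟩

/-- `x` starts with the pattern R Z. -/
def RZ : (m a : ℕ) → (D (m + 1) →ₗ[ZMod 2] ZMod 2) → Prop
  | 0, _, _ => False
  | m + 1, a, x => (∀ g : D (m + 2), x (X 0 ^ (a + 1) * g) = 0) ∧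
      ∃ g : D (m + 1), desc a x (X 0 ^ (a + 1) * g) ≠ 0

/-- Every nonzero functional killing all hits has a word. -/
theorem exists_word (d : ℕ) : ∀ (m a : ℕ) (x : D (m + 1) →ₗ[ZMod 2] ZMod 2), 1 ≤ a → Ann m a d x →
    (∃ g : D (m + 1), x (X 0 ^ a * g) ≠ 0) →
    ∃ w : List Bool, d = val (m + 1) a w ∧ w.count false = m + 1 ∧ 2 ^ w.length ≤ d + 1 ∧
      ok ((m + 1 : ℕ) - (a : ℕ) : ℤ) w ∧
      ((∃ v, w = true :: v) → ∃ g : D (m + 1), x (X 0 ^ (a + 1) * g) ≠ 0) ∧
      ((∃ v, w = false :: true :: v) → RZ m a x) := by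
  induction d using Nat.strong_induction_on with
  | _ d ih =>
    intro m a x ha hx hne
    by_cases hz : ∃ g, x (X 0 ^ (a + 1) * g) ≠ 0
    · obtain ⟨d', x', hd, hx', hk⟩ := zstep hx hz
      have hne' : ∃ g, x' (X 0 ^ ((a + m + 1) / 2) * g) ≠ 0 := by
        obtain ⟨g, hg⟩ := hz
        rw [hk] at hg
        obtain ⟨g', hg'⟩ := kap_stable (m := m) a g
        exact ⟨g', by rw [← hg']; exact hg⟩
      obtain ⟨w, h1, h2, h3, h4, h5, h6⟩ := ih d' (by omega) m _ x' (by omega) hx' hne'
      refine ⟨true :: w, ?_, ?_, ?_, ⟨?_, ?_⟩, fun _ => hz, ?_⟩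
      · rw [val, ← Nat.add_assoc a m 1, ← h1]; exact hd
      · rw [List.count_cons, h2]; simp
      · rw [List.length_cons, pow_succ]; omega
      · rintro ⟨hh, -, hv⟩
        have hRZ := h6 hv
        match m, x, x', hx, hx', hk, hne', hRZ, hh, hd with
        | 0, _, _, _, _, _, _, hRZ, _, _ => exact hRZ
        | m + 1, x, x', hx, hx', hk, hne', hRZ, hh, hd =>
          obtain ⟨h0, g, hg⟩ := hRZ
          have e1 : a + m = 2 * ((a + m) / 2) := by omega
          have e2 : (a + (m + 1) + 1) / 2 = (a + m) / 2 + 1 := by omega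
          rw [e2] at hx' h0 hg hne'
          obtain ⟨d2, hd2, hy', -⟩ := rstep hx' h0 hne'
          exact hg (forbid hx e1 hd hk h0 hd2 hy' (by omega) g)
      · have e : stp ((m + 1 : ℕ) - (a : ℕ) : ℤ) true = ((m + 1 : ℕ) : ℤ) - ((a + m + 1) / 2 : ℕ) := by
          show (((m + 1 : ℕ) : ℤ) - (a : ℕ) + 1) / 2 = _
          omega
        rw [e]; exact h4
      · rintro ⟨v, hv⟩; cases hv
    · push Not at hz
      match m, x, hx, hne, hz with
      | 0, x, hx, hne, hz =>
        have hd := term_step hx hz hne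
        refine ⟨[false], ?_, by simp, ?_, ⟨?_, trivial⟩, ?_, ?_⟩
        · simp [val, hd]
        · simp only [List.length_singleton]; omega
        · rintro ⟨-, h, -⟩; cases h
        · rintro ⟨v, hv⟩; cases hv
        · rintro ⟨v, hv⟩; cases hv
      | m + 1, x, hx, hne, hz =>
        obtain ⟨d', hd, hy, hne'⟩ := rstep hx hz hne
        obtain ⟨w, h1, h2, h3, h4, h5, h6⟩ := ih d' (by omega) m a _ ha hy hne'
        refine ⟨false :: w, ?_, ?_, ?_, ⟨?_, ?_⟩, ?_, ?_⟩
        · rw [val, Nat.add_sub_cancel, ← h1]; exact hd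
        · rw [List.count_cons, h2]; simp
        · rw [List.length_cons, pow_succ]; omega
        · rintro ⟨-, h, -⟩; cases h
        · have e : stp ((m + 1 + 1 : ℕ) - (a : ℕ) : ℤ) false = ((m + 1 : ℕ) : ℤ) - (a : ℕ) := by
            show ((m + 1 + 1 : ℕ) : ℤ) - (a : ℕ) - 1 = _
            omega
          rw [e]; exact h4
        · rintro ⟨v, hv⟩; cases hv
        · rintro ⟨v, hv⟩
          refine ⟨hz, h5 ⟨v, ?_⟩⟩
          injection hv

/-! ### Counting -/

/-- All words of length `L`. -/
def words : ℕ → Finset (List Bool)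
  | 0 => {[]}
  | L + 1 => (words L).image (List.cons true) ∪ (words L).image (List.cons false)

lemma mem_words (L : ℕ) (w : List Bool) : w ∈ words L ↔ w.length = L := by
  induction L generalizing w with
  | zero => simp [words, List.length_eq_zero_iff]
  | succ L ih =>
    rw [words, Finset.mem_union, Finset.mem_image, Finset.mem_image]
    constructor
    · rintro (⟨v, hv, rfl⟩ | ⟨v, hv, rfl⟩) <;> simp [(ih v).mp hv]
    · intro h
      match w, h with
      | true :: v, h => exact Or.inl ⟨v, (ih v).mpr (by simpa using h), rfl⟩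
      | false :: v, h => exact Or.inr ⟨v, (ih v).mpr (by simpa using h), rfl⟩

lemma card_words (L : ℕ) : (words L).card ≤ 2 ^ L := by
  induction L with
  | zero => simp [words]
  | succ L ih =>
    rw [words]
    calc _ ≤ ((words L).image (List.cons true)).card + ((words L).image (List.cons false)).card :=
          Finset.card_union_le _ _
      _ ≤ (words L).card + (words L).card := Nat.add_le_add Finset.card_image_le Finset.card_image_le
      _ ≤ 2 ^ (L + 1) := by rw [pow_succ]; omega

open Classical in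
/-- The allowed words of length `L`. -/
def okw (h : ℤ) (L : ℕ) : Finset (List Bool) := (words L).filter (ok h)

/-- The state after a word. -/
def run : ℤ → List Bool → ℤ
  | h, [] => h
  | h, c :: w => run (stp h c) w

lemma ok_append (h : ℤ) (u v : List Bool) (hok : ok h (u ++ v)) : ok h u ∧ ok (run h u) v := by
  induction u generalizing h with
  | nil => exact ⟨trivial, hok⟩
  | cons c u ih =>
    obtain ⟨h1, h2⟩ := hok
    obtain ⟨h3, h4⟩ := ih _ h2
    refine ⟨⟨?_, h3⟩, h4⟩
    rintro ⟨a1, a2, t, ht⟩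
    apply h1
    refine ⟨a1, a2, t ++ v, ?_⟩
    rw [ht]; rfl

lemma exists_bad (k : ℤ) : ∃ u ∈ words 6, ¬ ok k u := by
  have h4 : k % 4 = 0 ∨ k % 4 = 1 ∨ k % 4 = 2 ∨ k % 4 = 3 := by omega
  rcases h4 with h4 | h4 | h4 | h4
  · refine ⟨[false, false, true, false, true, true], (mem_words _ _).mpr rfl, ?_⟩
    rintro ⟨-, -, h, -⟩
    exact h ⟨by show (k - 1 - 1) % 4 = 2; omega, rfl, [true], rfl⟩
  · refine ⟨[false, false, false, true, false, true], (mem_words _ _).mpr rfl, ?_⟩
    rintro ⟨-, -, -, h, -⟩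
    exact h ⟨by show (k - 1 - 1 - 1) % 4 = 2; omega, rfl, [], rfl⟩
  · refine ⟨[true, false, true, true, true, true], (mem_words _ _).mpr rfl, ?_⟩
    rintro ⟨h, -⟩
    exact h ⟨h4, rfl, [true, true, true], rfl⟩
  · refine ⟨[false, true, false, true, true, true], (mem_words _ _).mpr rfl, ?_⟩
    rintro ⟨-, h, -⟩
    exact h ⟨by show (k - 1) % 4 = 2; omega, rfl, [true, true], rfl⟩

lemma card_okw_six (h : ℤ) : (okw h 6).card ≤ 63 := by
  classical
  obtain ⟨u, hu, hbad⟩ := exists_bad h
  have hss : okw h 6 ⊂ words 6 := by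
    refine Finset.filter_ssubset.mpr ⟨u, hu, hbad⟩
  have h1 := Finset.card_lt_card hss
  have h2 := card_words 6
  norm_num at h2
  omega

lemma card_okw (L : ℕ) : ∀ h, (okw h L).card ≤ 32 * 63 ^ (L / 6) := by
  classical
  induction L using Nat.strong_induction_on with
  | _ L ih =>
    intro h
    rcases Nat.lt_or_ge L 6 with hL | hL
    · have h1 : (okw h L).card ≤ (words L).card := Finset.card_le_card (Finset.filter_subset _ _)
      have h2 := card_words L
      have h3 : 2 ^ L ≤ 2 ^ 5 := Nat.pow_le_pow_right (by norm_num) (by omega)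
      have h4 : L / 6 = 0 := by omega
      rw [h4]
      norm_num at h3 ⊢
      omega
    · obtain ⟨L', rfl⟩ : ∃ L', L = 6 + L' := ⟨L - 6, by omega⟩
      have hsub : okw h (6 + L') ⊆ (okw h 6).biUnion (fun u => (okw (run h u) L').image (u ++ ·)) := by
        intro w hw
        unfold okw at hw
        rw [Finset.mem_filter, mem_words] at hw
        have hlen := hw.1
        have hok := hw.2
        refine Finset.mem_biUnion.mpr ?_
        have hspl : w.take 6 ++ w.drop 6 = w := List.take_append_drop 6 w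
        rw [← hspl] at hok
        obtain ⟨h1, h2⟩ := ok_append _ _ _ hok
        refine ⟨w.take 6, ?_, ?_⟩
        · unfold okw
          rw [Finset.mem_filter, mem_words]
          exact ⟨by rw [List.length_take, hlen]; omega, h1⟩
        · rw [Finset.mem_image]
          refine ⟨w.drop 6, ?_, hspl⟩
          unfold okw
          rw [Finset.mem_filter, mem_words]
          exact ⟨by rw [List.length_drop, hlen]; omega, h2⟩
      have h1 := Finset.card_le_card hsub
      have h2 : ((okw h 6).biUnion (fun u => (okw (run h u) L').image (u ++ ·))).card ≤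
          ∑ u ∈ okw h 6, 32 * 63 ^ (L' / 6) := by
        refine Finset.card_biUnion_le.trans (Finset.sum_le_sum fun u _ => ?_)
        exact Finset.card_image_le.trans (ih L' (by omega) _)
      rw [Finset.sum_const, smul_eq_mul] at h2
      have h3 := card_okw_six h
      have h4 : (6 + L') / 6 = L' / 6 + 1 := by omega
      rw [h4, pow_succ]
      calc _ ≤ (okw h 6).card * (32 * 63 ^ (L' / 6)) := h1.trans h2
        _ ≤ 63 * (32 * 63 ^ (L' / 6)) := Nat.mul_le_mul_right _ h3
        _ = _ := by ring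

/-- All words that can occur in degrees `≤ N`. -/
def allw (N : ℕ) : Finset (List Bool) :=
  (range (Nat.log 2 (N + 1) + 1)).biUnion fun L =>
    (range (L + 1)).biUnion fun n => okw ((n : ℤ) - 1) L

lemma card_allw (N : ℕ) : (allw N).card ≤
    (Nat.log 2 (N + 1) + 1) ^ 2 * (32 * 63 ^ (Nat.log 2 (N + 1) / 6)) := by
  set l := Nat.log 2 (N + 1) with hl
  have h1 : (allw N).card ≤ ∑ L ∈ range (l + 1), ∑ n ∈ range (L + 1), 32 * 63 ^ (l / 6) := by
    refine Finset.card_biUnion_le.trans (Finset.sum_le_sum fun L hL => ?_)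
    refine Finset.card_biUnion_le.trans (Finset.sum_le_sum fun n _ => ?_)
    refine (card_okw L _).trans (Nat.mul_le_mul_left _ ?_)
    apply Nat.pow_le_pow_right (by norm_num)
    rw [Finset.mem_range] at hL
    omega
  refine h1.trans ?_
  have h2 : ∑ L ∈ range (l + 1), ∑ n ∈ range (L + 1), 32 * 63 ^ (l / 6) ≤
      ∑ L ∈ range (l + 1), ∑ n ∈ range (l + 1), 32 * 63 ^ (l / 6) := by
    apply Finset.sum_le_sum
    intro L hL
    rw [Finset.mem_range] at hL
    exact Finset.sum_le_sum_of_subset (Finset.range_mono (by omega))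
  refine h2.trans ?_
  simp only [Finset.sum_const, Finset.card_range, smul_eq_mul]
  apply le_of_eq
  ring

/-- A degree supporting a nonzero functional of rank `n ≥ 1` on the ideal of `Q_0` killing all
hits. -/
def Exc (d : ℕ) : Prop :=
  ∃ (m : ℕ) (x : D (m + 1) →ₗ[ZMod 2] ZMod 2), Ann m 1 d x ∧
    ∃ g : D (m + 1), x (X 0 ^ 1 * g) ≠ 0

/-- Every exceptional degree `≤ N` is the value of one of the allowed words. -/
lemma Exc.mem {d N : ℕ} (h : Exc d) (hd : d ≤ N) :
    d ∈ (allw N).image (fun w => val (w.count false) 1 w) := by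
  obtain ⟨m, x, hx, hne⟩ := h
  obtain ⟨w, h1, h2, h3, h4, -⟩ := exists_word d m 1 x le_rfl hx hne
  rw [Finset.mem_image]
  refine ⟨w, ?_, by rw [h2, ← h1]⟩
  have hlen : w.length ≤ Nat.log 2 (N + 1) := by
    apply Nat.le_log_of_pow_le (by norm_num)
    omega
  rw [allw, Finset.mem_biUnion]
  refine ⟨w.length, Finset.mem_range.mpr (by omega), ?_⟩
  rw [Finset.mem_biUnion]
  refine ⟨w.count false, Finset.mem_range.mpr ?_, ?_⟩
  · have := List.count_le_length (a := false) (l := w)
    omega
  · classical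
    rw [okw, Finset.mem_filter, mem_words]
    refine ⟨rfl, ?_⟩
    rw [h2]
    exact_mod_cast h4

end

end Vale.Agent.P263.H968
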